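import Vale.Agent.P227.Zonoid.Tope

/-!
A zonoid cut out by `f` agrees with `f` orthogonally to independent generators, so approximating
zonotopes satisfy the hypothesis of the finite inequality.
-/

noncomputable section

namespace Vale.Agent.P227.Zonoid

open Set Matrix MeasureTheory Pointwise Filter Topology
open scoped ENNReal

variable {n : ℕ}

/-- The convex hull of a compact set is compact. -/
theorem isCompact_hull {E : Type*} [NormedAddCommGroup E] [NormedSpace ℝ E]
    [FiniteDimensional ℝ E] {s : Set E} (hs : IsCompact s) : IsCompact (convexHull ℝ s) := by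
  classical
  set d := Module.finrank ℝ E + 1 with hd
  let Φ : (Fin d → ℝ) × (Fin d → E) → E := fun q => ∑ i, q.1 i • q.2 i
  have e : convexHull ℝ s = Φ '' (stdSimplex ℝ (Fin d) ×ˢ univ.pi fun _ => s) := by
    refine subset_antisymm (fun x hx => ?_) ?_
    · obtain ⟨ι, hι, z, w, hzs, hzi, hw0, hw1, hzx⟩ := eq_pos_convex_span_of_mem_convexHull hx
      have hne : Nonempty ι := by
        by_contra h
        rw [not_nonempty_iff] at h
        simp at hw1
      obtain ⟨i0⟩ := hne
      have hcard : Fintype.card ι ≤ d :=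
        hzi.card_le_finrank_succ.trans (Nat.add_le_add_right (Submodule.finrank_le _) 1)
      let em : ι ↪ Fin d := ((Fintype.equivFin ι).toEmbedding).trans (Fin.castLEEmb hcard)
      let w' : Fin d → ℝ := Function.extend em w 0
      let z' : Fin d → E := Function.extend em z fun _ => z i0
      have hw' : ∀ i ∉ Set.range em, w' i = 0 := fun i hi =>
        Function.extend_apply' _ _ _ (by simpa using hi)
      refine ⟨(w', z'), ⟨⟨fun i => ?_, ?_⟩, fun i _ => ?_⟩, ?_⟩
      · show 0 ≤ w' i
        by_cases hi : i ∈ Set.range em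
        · obtain ⟨j, rfl⟩ := hi
          simp only [w', em.injective.extend_apply]
          exact (hw0 j).le
        · rw [hw' i hi]
      · rw [← hw1]
        exact (Fintype.sum_of_injective em em.injective _ _ hw'
          fun j => (em.injective.extend_apply _ _ j).symm).symm
      · show z' i ∈ s
        by_cases hi : i ∈ Set.range em
        · obtain ⟨j, rfl⟩ := hi
          simp only [z', em.injective.extend_apply]
          exact hzs ⟨j, rfl⟩
        · simp only [z']
          rw [Function.extend_apply' _ _ _ (by simpa using hi)]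
          exact hzs ⟨i0, rfl⟩
      · rw [← hzx]
        refine (Fintype.sum_of_injective em em.injective _ _ (fun i hi => ?_) fun j => ?_).symm
        · show w' i • z' i = 0
          rw [hw' i hi, zero_smul]
        · show w j • z j = w' (em j) • z' (em j)
          simp only [w', z', em.injective.extend_apply]
    · rintro _ ⟨⟨w, z⟩, ⟨⟨hw0, hw1⟩, hz⟩, rfl⟩
      exact (convex_convexHull ℝ s).sum_mem (fun i _ => hw0 i) hw1
        fun i _ => subset_convexHull ℝ s (hz i trivial)
  rw [e]
  exact ((isCompact_stdSimplex ℝ (Fin d)).prod (isCompact_univ_pi fun _ => hs)).image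
    (by unfold Φ; fun_prop)

/-- A body contains every point below its support function. -/
theorem mem_of_le_supp {Z : Set (Fin n → ℝ)} (hZ : Body Z) {x : Fin n → ℝ}
    (hx : ∀ u, u ⬝ᵥ x ≤ supp Z u) : x ∈ Z := by
  by_contra hn
  obtain ⟨φ, r, h1, h2⟩ := geometric_hahn_banach_closed_point hZ.conv hZ.comp.isClosed hn
  set u : Fin n → ℝ := fun k => φ (Pi.single k 1)
  have hdot : ∀ y, u ⬝ᵥ y = φ y := fun y => by
    conv_rhs => rw [pi_eq_sum_univ' y, map_sum]
    simp only [map_smul, smul_eq_mul, dotProduct, u]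
    exact Finset.sum_congr rfl fun k _ => mul_comm _ _
  obtain ⟨z, hz, hzu⟩ := hZ.exists_supp_eq u
  have := hx u
  rw [← hzu, hdot, hdot] at this
  linarith [h1 z hz]

theorem abs_dot_le (u x : Fin n → ℝ) : |u ⬝ᵥ x| ≤ n * ‖u‖ * ‖x‖ := by
  calc |u ⬝ᵥ x| ≤ ∑ i, |u i * x i| := Finset.abs_sum_le_sum_abs _ _
    _ ≤ ∑ _i : Fin n, ‖u‖ * ‖x‖ := Finset.sum_le_sum fun i _ => by
        rw [abs_mul]
        exact mul_le_mul (norm_le_pi_norm u i) (norm_le_pi_norm x i) (abs_nonneg _) (norm_nonneg _)
    _ = _ := by simp [mul_assoc]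

variable {μ : Measure (Fin n → ℝ)}

theorem integrable_abs_dot (hμ : Integrable (fun x => x) μ) (u : Fin n → ℝ) :
    Integrable (fun x => |u ⬝ᵥ x|) μ :=
  (hμ.norm.const_mul (n * ‖u‖)).mono' ((continuous_dot u).abs.measurable.aestronglyMeasurable)
    (Eventually.of_forall fun x => by
      rw [Real.norm_eq_abs, abs_abs]; exact abs_dot_le u x)

/-- Orthogonally to independent generators the zonoid attains `f`. -/
theorem facet_le {f : (Fin n → ℝ) → ℝ} (hfc : Continuous f) (hfh : ∀ c v, f (c • v) = |c| * f v)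
    (hfp : ∀ v, v ≠ 0 → 0 < f v) (hμ : Integrable (fun x => x) μ)
    {W : Set (Fin n → ℝ)} (hW : Body W) (hW0 : W ∈ nhds 0)
    (hWf : ∀ x, (∀ v, v ⬝ᵥ x ≤ f v) → x ∈ W) (hle : ∀ v, supp W v ≤ f v)
    (hw : ∀ v, supp W v = ∫ x, |v ⬝ᵥ x| ∂μ)
    {u : Fin n → ℝ} (hu : u ≠ 0) {ι : Type*} (J : Finset ι) (a : ι → Fin n → ℝ)
    (hJc : J.card + 1 = n) (hJi : LinearIndependent ℝ (fun j : J => a j))
    (hJs : ∀ j ∈ J, a j ∈ μ.support) (hJu : ∀ j ∈ J, u ⬝ᵥ a j = 0) : f u ≤ supp W u := by
  classical
  set wu := supp W u with hwu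
  have hwu0 : 0 < wu := hW.supp_pos hW0 hu
  set g : (Fin n → ℝ) → Fin n → ℝ := fun v => (f v)⁻¹ • v with hg
  set S := g '' Metric.sphere (0 : Fin n → ℝ) 1 with hS
  have hne : ∀ v ∈ Metric.sphere (0 : Fin n → ℝ) 1, v ≠ 0 := fun v hv h => by
    rw [h] at hv; simp at hv
  have hSc : IsCompact S := (isCompact_sphere 0 1).image_of_continuousOn
    ((hfc.continuousOn.inv₀ fun v hv => (hfp v (hne v hv)).ne').smul continuousOn_id)
  have hmem : wu⁻¹ • u ∈ convexHull ℝ S := by
    by_contra hn
    obtain ⟨φ, r, h1, h2⟩ := geometric_hahn_banach_closed_point (convex_convexHull ℝ S)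
      (isCompact_hull hSc).isClosed hn
    set y : Fin n → ℝ := fun k => φ (Pi.single k 1)
    have hdot : ∀ x, x ⬝ᵥ y = φ x := fun x => by
      conv_rhs => rw [pi_eq_sum_univ' x, map_sum]
      simp only [map_smul, smul_eq_mul, dotProduct, y]
    have hnorm : ∀ v : Fin n → ℝ, v ≠ 0 → ‖v‖⁻¹ • v ∈ Metric.sphere (0 : Fin n → ℝ) 1 :=
      fun v hv => by simp [norm_smul, hv]
    have hlt : ∀ v : Fin n → ℝ, v ≠ 0 → v ⬝ᵥ y < r * f v := by
      intro v hv
      have h := h1 _ (subset_convexHull ℝ S ⟨_, hnorm v hv, rfl⟩)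
      have hn0 : (0:ℝ) < ‖v‖⁻¹ := inv_pos.2 (norm_pos_iff.2 hv)
      rw [map_smul, smul_eq_mul, inv_mul_lt_iff₀ (hfp _ (hne _ (hnorm v hv))), map_smul,
        smul_eq_mul, hfh, abs_of_pos hn0, mul_assoc, mul_lt_mul_iff_right₀ hn0] at h
      rw [hdot, mul_comm]
      exact h
    have hr : 0 < r := by
      have h := hlt u hu
      have h' := hlt (-u) (neg_ne_zero.2 hu)
      have e : f (-u) = f u := by simpa using hfh (-1) u
      rw [neg_dotProduct, e] at h'
      nlinarith [hfp u hu]
    have hyW : r⁻¹ • y ∈ W := hWf _ fun v => by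
      rcases eq_or_ne v 0 with rfl | hv
      · rw [zero_dotProduct]; simpa using (hfh 0 u).ge
      · rw [dotProduct_smul, smul_eq_mul, inv_mul_le_iff₀ hr]; exact (hlt v hv).le
    have h3 := hW.le_supp hyW u
    rw [dotProduct_smul, smul_eq_mul, inv_mul_le_iff₀ hr, hdot] at h3
    rw [map_smul, smul_eq_mul, lt_inv_mul_iff₀ hwu0] at h2
    nlinarith
  obtain ⟨κ, hκ, wt, z, hwt0, hwt1, hz, hzu⟩ := mem_convexHull_iff_exists_fintype.1 hmem
  choose v hv hvz using hz
  set lam : κ → ℝ := fun j => wu * wt j * (f (v j))⁻¹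
  have hfv : ∀ j, 0 < f (v j) := fun j => hfp _ (hne _ (hv j))
  have hlam : ∀ j, 0 ≤ lam j := fun j =>
    mul_nonneg (mul_nonneg hwu0.le (hwt0 j)) (inv_nonneg.2 (hfv j).le)
  have hu_eq : u = ∑ j, lam j • v j := by
    have := congrArg (fun x => wu • x) hzu
    simp only [Finset.smul_sum, smul_smul, mul_inv_cancel₀ hwu0.ne', one_smul] at this
    rw [← this]
    refine Finset.sum_congr rfl fun j _ => ?_
    rw [← hvz j]
    simp only [hg, smul_smul, lam]
  have hsum : ∑ j, lam j * f (v j) = wu := by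
    simp only [lam, mul_assoc, inv_mul_cancel₀ (hfv _).ne', mul_one, ← Finset.mul_sum, hwt1]
  set G : (Fin n → ℝ) → ℝ := fun x => ∑ j, lam j * |v j ⬝ᵥ x| - |u ⬝ᵥ x| with hG
  have hG0 : ∀ x, 0 ≤ G x := fun x => by
    rw [hG, sub_nonneg]
    conv_lhs => rw [hu_eq, sum_dotProduct]
    refine (Finset.abs_sum_le_sum_abs _ _).trans (Finset.sum_le_sum fun j _ => ?_)
    rw [smul_dotProduct, smul_eq_mul, abs_mul, abs_of_nonneg (hlam j)]
  have hGi : Integrable G μ := (integrable_finsetSum _ fun j _ =>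
    (integrable_abs_dot hμ (v j)).const_mul (lam j)).sub (integrable_abs_dot hμ u)
  have hGz : ∫ x, G x ∂μ = 0 := by
    refine le_antisymm ?_ (integral_nonneg hG0)
    rw [hG, integral_sub (integrable_finsetSum _ fun j _ =>
      (integrable_abs_dot hμ (v j)).const_mul (lam j)) (integrable_abs_dot hμ u),
      integral_finsetSum _ fun j _ => (integrable_abs_dot hμ (v j)).const_mul (lam j)]
    simp only [integral_const_mul, ← hw]
    rw [sub_nonpos, ← hwu, ← hsum]
    exact Finset.sum_le_sum fun j _ => mul_le_mul_of_nonneg_left (hle _) (hlam j)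
  have hGc : Continuous G := by
    simp only [hG]
    exact (continuous_finset_sum _ fun j _ => continuous_const.mul (continuous_dot (v j)).abs).sub
      (continuous_dot u).abs
  have hsupp : ∀ x ∈ μ.support, G x = 0 := by
    intro x hx
    by_contra hne'
    have hopen : IsOpen {y | G y ≠ 0} := isOpen_ne_fun hGc continuous_const
    have hnull : μ {y | G y ≠ 0} = 0 := by
      have := (integral_eq_zero_iff_of_nonneg hG0 hGi).1 hGz
      exact this
    exact Measure.subset_compl_support_of_isOpen hopen hnull hne' hx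
  have hspan : ∀ x : Fin n → ℝ, (∀ j ∈ J, a j ⬝ᵥ x = 0) → u ⬝ᵥ x = 0 → x = 0 := by
    have hnot : u ∉ Submodule.span ℝ (Set.range fun j : J => a j) := fun h => by
      have hall : ∀ y ∈ Submodule.span ℝ (Set.range fun j : J => a j), u ⬝ᵥ y = 0 := by
        intro y hy
        induction hy using Submodule.span_induction with
        | mem y hy => obtain ⟨j, rfl⟩ := hy; exact hJu j j.2
        | zero => simp
        | add p q _ _ hp hq => rw [dotProduct_add, hp, hq, add_zero]
        | smul c p _ hp => rw [dotProduct_smul, hp, smul_zero]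
      exact hu (dotProduct_self_eq_zero.1 (hall u h))
    have hli : LinearIndependent ℝ (fun o : Option J => o.elim u fun j => a j) :=
      linearIndependent_option.2 ⟨hJi, hnot⟩
    have htop := hli.span_eq_top_of_card_eq_finrank' (by simp [hJc])
    intro x hx hux
    have hall : ∀ y ∈ Submodule.span ℝ (Set.range fun o : Option J => o.elim u fun j => a j),
        y ⬝ᵥ x = 0 := by
      intro y hy
      induction hy using Submodule.span_induction with
      | mem y hy =>
        obtain ⟨o, rfl⟩ := hy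
        cases o with
        | none => exact hux
        | some j => exact hx j j.2
      | zero => simp
      | add p q _ _ hp hq => rw [add_dotProduct, hp, hq, add_zero]
      | smul c p _ hp => rw [smul_dotProduct, hp, smul_zero]
    exact dotProduct_self_eq_zero.1 (hall x (by rw [htop]; exact Submodule.mem_top))
  set cc : κ → ℝ := fun j => (u ⬝ᵥ v j) / (u ⬝ᵥ u)
  have huu : u ⬝ᵥ u ≠ 0 := fun h => hu (dotProduct_self_eq_zero.1 h)
  have hprop : ∀ j, lam j • v j = (lam j * cc j) • u := by
    intro j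
    rcases (hlam j).eq_or_lt with h | h
    · rw [← h, zero_smul, zero_mul, zero_smul]
    rw [mul_smul (lam j) (cc j)]
    congr 1
    refine sub_eq_zero.1 (hspan _ (fun i hi => ?_) ?_)
    · have h0 := hsupp _ (hJs i hi)
      simp only [hG, hJu i hi, abs_zero, sub_zero] at h0
      have h1 := (Finset.sum_eq_zero_iff_of_nonneg fun k _ =>
        mul_nonneg (hlam k) (abs_nonneg _)).1 h0 j (Finset.mem_univ j)
      rw [mul_eq_zero, abs_eq_zero] at h1
      rw [dotProduct_sub, dotProduct_smul, dotProduct_comm (a i) u, hJu i hi, smul_zero, sub_zero,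
        dotProduct_comm, h1.resolve_left h.ne']
    · rw [dotProduct_sub, dotProduct_smul, smul_eq_mul, div_mul_cancel₀ _ huu, sub_self]
  have hone : ∑ j, lam j * cc j = 1 := by
    have h := congrArg (fun x => u ⬝ᵥ x) hu_eq
    simp only [hprop, ← Finset.sum_smul, dotProduct_smul, smul_eq_mul] at h
    exact mul_right_cancel₀ huu (by rw [← h, one_mul])
  calc f u = (∑ j, lam j * cc j) * f u := by rw [hone, one_mul]
    _ ≤ ∑ j, lam j * f (v j) := by
        rw [Finset.sum_mul]
        refine Finset.sum_le_sum fun j _ => ?_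
        have h := congrArg f (hprop j)
        rw [hfh, hfh, abs_of_nonneg (hlam j)] at h
        rw [h]
        exact mul_le_mul_of_nonneg_right (le_abs_self _) (hfp u hu).le
    _ = wu := hsum

variable {K L : Set (Fin n → ℝ)} {t : ℝ}

theorem lower_supp {W : Set (Fin n → ℝ)} (hW : Body W) (hW0 : W ∈ nhds 0) :
    ∃ c : ℝ, 0 < c ∧ ∀ v, c * ‖v‖ ≤ supp W v := by
  obtain ⟨r, hr0, hr⟩ := Metric.mem_nhds_iff.1 hW0
  refine ⟨r / 2, half_pos hr0, fun v => ?_⟩
  rw [mul_comm, ← le_div_iff₀ (by positivity),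
    pi_norm_le_iff_of_nonneg (div_nonneg (hW.supp_nonneg v) (by positivity))]
  intro i
  rw [Real.norm_eq_abs, le_div_iff₀ (by positivity), mul_comm]
  have hx : (r / 2) • Pi.single i (1 : ℝ) ∈ W := hr (by
    rw [Metric.mem_ball, dist_zero_right, norm_smul, Pi.norm_single, norm_one, mul_one,
      Real.norm_of_nonneg (by positivity)]
    linarith)
  have := hW.abs_le_supp hx v
  rw [dotProduct_smul, dotProduct_single, mul_one, smul_eq_mul, abs_mul,
    abs_of_pos (half_pos hr0)] at this
  exact this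

/-- The inequality for a zonoid dominating the geometric mean of the support functions
orthogonally to independent generators. -/
theorem zonoid_core [IsFiniteMeasure μ] (hK : Body K) (hL : Body L) (hK0 : K ∈ nhds 0)
    (hL0 : L ∈ nhds 0) (ht0 : 0 < t) (ht1 : t < 1) (hμ : Integrable (fun x => x) μ)
    {W : Set (Fin n → ℝ)} (hW : Body W) (hW0 : W ∈ nhds 0)
    (hw : ∀ v, supp W v = ∫ x, |v ⬝ᵥ x| ∂μ)
    (hF : ∀ u, u ≠ 0 → ∀ J : Finset (Fin n → ℝ), J.card + 1 = n →
      LinearIndependent ℝ (fun j : J => (j : Fin n → ℝ)) → (∀ j ∈ J, j ∈ μ.support) →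
      (∀ j ∈ J, u ⬝ᵥ j = 0) → supp K u ^ (1 - t) * supp L u ^ t ≤ supp W u) :
    vol K ^ (1 - t) * vol L ^ t ≤ vol W := by
  classical
  obtain ⟨r, hr0, hlow⟩ := lower_supp hW hW0
  -- approximation by zonotopes with generators in the support
  set T : Set (Fin n → ℝ) := μ.support ∪ {0}
  have h0T : (0 : Fin n → ℝ) ∈ T := Or.inr rfl
  set s : ℕ → SimpleFunc (Fin n → ℝ) (Fin n → ℝ) := fun k =>
    SimpleFunc.approxOn id measurable_id T 0 h0T k
  have hae : ∀ᵐ x ∂μ, id x ∈ closure T := by
    filter_upwards [Measure.support_mem_ae (μ := μ)] with x hx using subset_closure (Or.inl hx)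
  have hsi : ∀ k, Integrable (s k) μ := fun k =>
    SimpleFunc.integrable_approxOn measurable_id hμ h0T (integrable_zero _ _ _) k
  have hlimE : Tendsto (fun k => (∫⁻ x, ‖s k x - x‖ₑ ∂μ).toReal) atTop (𝓝 0) := by
    have h := SimpleFunc.tendsto_approxOn_L1_enorm measurable_id h0T (μ := μ) hae
      (by simpa using hμ.2)
    exact (ENNReal.tendsto_toReal ENNReal.zero_ne_top).comp h
  set η : ℕ → ℝ := fun k => n * (∫⁻ x, ‖s k x - x‖ₑ ∂μ).toReal / r
  have hη : Tendsto η atTop (𝓝 0) := by
    simpa [η] using (hlimE.const_mul (n:ℝ)).div_const r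
  have hη0 : ∀ k, 0 ≤ η k := fun k => by positivity
  have hbound : ∀ k, η k < 1 →
      vol K ^ (1 - t) * vol L ^ t ≤ ((1 + η k) / (1 - η k)) ^ n * vol W := by
    intro k hk
    have h1η : 0 < 1 - η k := by linarith
    set F := (s k).range
    set m : (Fin n → ℝ) → ℝ := fun y => μ.real (s k ⁻¹' {y}) / (1 - η k)
    set a : (Fin n → ℝ) → Fin n → ℝ := fun y => m y • y
    set Z := ∑ y ∈ F, seg (a y)
    have hZb : Body Z := body_sum _ _
    have hz : ∀ v, supp Z v = (∫ x, |v ⬝ᵥ s k x| ∂μ) / (1 - η k) := by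
      intro v
      rw [supp_sum]
      have hpt : ∀ x, |v ⬝ᵥ s k x| =
          ∑ y ∈ F, (s k ⁻¹' {y}).indicator (fun _ => |v ⬝ᵥ y|) x := fun x => by
        rw [Finset.sum_eq_single (s k x)]
        · simp
        · intro y _ hy
          exact indicator_of_notMem (s := s k ⁻¹' {y}) (fun h => hy (Eq.symm h)) fun _ => |v ⬝ᵥ y|
        · exact fun h => absurd ((s k).mem_range_self x) h
      simp only [hpt]
      rw [integral_finsetSum _ fun y _ =>
        (integrable_const _).indicator ((s k).measurableSet_fiber y), Finset.sum_div]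
      refine Finset.sum_congr rfl fun y _ => ?_
      rw [integral_indicator_const _ ((s k).measurableSet_fiber y), dotProduct_smul]
      simp only [smul_eq_mul, m, abs_mul, abs_div, abs_of_pos h1η, abs_of_nonneg measureReal_nonneg]
      ring
    have hclose : ∀ v, |(∫ x, |v ⬝ᵥ s k x| ∂μ) - supp W v| ≤ η k * supp W v := by
      intro v
      have hiv : Integrable (fun x => |v ⬝ᵥ s k x|) μ :=
        ((hsi k).norm.const_mul (n * ‖v‖)).mono'
          (((continuous_dot v).abs.measurable.comp (s k).measurable).aestronglyMeasurable)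
          (Eventually.of_forall fun x => by
            rw [Real.norm_eq_abs, abs_abs]; exact abs_dot_le v _)
      have hd : Integrable (fun x => ‖s k x - x‖) μ := ((hsi k).sub hμ).norm
      rw [hw, ← integral_sub hiv (integrable_abs_dot hμ v)]
      refine abs_integral_le_integral_abs.trans ?_
      have h1 : ∫ x, |(|v ⬝ᵥ s k x| - |v ⬝ᵥ x|)| ∂μ ≤ ∫ x, n * ‖v‖ * ‖s k x - x‖ ∂μ :=
        integral_mono (hiv.sub (integrable_abs_dot hμ v)).abs (hd.const_mul _) fun x =>
          (abs_abs_sub_abs_le_abs_sub _ _).trans (by rw [← dotProduct_sub]; exact abs_dot_le v _)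
      refine h1.trans ?_
      have e : ∫ x, ‖s k x - x‖ ∂μ = (∫⁻ x, ‖s k x - x‖ₑ ∂μ).toReal :=
        integral_norm_eq_lintegral_enorm ((hsi k).sub hμ).1
      rw [integral_const_mul, e, ← hw]
      calc (n : ℝ) * ‖v‖ * (∫⁻ x, ‖s k x - x‖ₑ ∂μ).toReal = η k * (r * ‖v‖) := by
            simp only [η]; field_simp
        _ ≤ η k * supp W v := mul_le_mul_of_nonneg_left (hlow v) (hη0 k)
    have hWZ : ∀ v, supp W v ≤ supp Z v := fun v => by
      rw [hz, le_div_iff₀ h1η]
      linarith [(abs_le.1 (hclose v)).1]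
    have hZ0 : Z ∈ nhds 0 := Filter.mem_of_superset hW0 fun x hx =>
      mem_of_le_supp hZb fun v => (hW.le_supp hx v).trans (hWZ v)
    have hmain := tope_ineq F a hK hL hK0 hL0 hZ0 ht0 ht1 ?_
    · refine hmain.trans ((vol_mono (hW.smul _).comp ?_).trans_eq
        (vol_smul W (by positivity : (0:ℝ) ≤ (1 + η k) / (1 - η k))))
      intro x hx
      refine ⟨((1 + η k) / (1 - η k))⁻¹ • x, mem_of_le_supp hW fun v => ?_,
        smul_inv_smul₀ (by positivity [hη0 k]) x⟩
      rw [dotProduct_smul, smul_eq_mul, inv_mul_le_iff₀ (by positivity [hη0 k])]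
      refine (hZb.le_supp hx v).trans ?_
      rw [hz, div_mul_eq_mul_div]
      refine div_le_div_of_nonneg_right ?_ h1η.le
      linarith [(abs_le.1 (hclose v)).2]
    · intro u hu ⟨J, hJF, hJc, hJi, hJu⟩
      have hm : ∀ y ∈ J, m y ≠ 0 ∧ y ≠ 0 := fun y hy => by
        have := hJi.ne_zero ⟨y, hy⟩
        exact smul_ne_zero_iff.1 this
      refine (hF u hu J hJc ?_ ?_ fun y hy => ?_).trans (hWZ u)
      · rw [Fintype.linearIndependent_iff] at hJi ⊢
        intro g hg i
        have h := hJi (fun j => g j / m j) ?_ i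
        · rw [div_eq_zero_iff] at h
          exact h.resolve_right (hm i i.2).1
        · rw [← hg]
          refine Finset.sum_congr rfl fun j _ => ?_
          rw [smul_smul, div_mul_cancel₀ _ (hm j j.2).1]
      · intro y hy
        obtain ⟨x, hx⟩ := SimpleFunc.mem_range.1 (hJF hy)
        have hmem : s k x ∈ T := SimpleFunc.approxOn_mem measurable_id h0T k x
        rw [hx] at hmem
        exact hmem.resolve_right (hm y hy).2
      · have := hJu y hy
        rw [dotProduct_smul, smul_eq_mul, mul_eq_zero] at this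
        exact this.resolve_left (hm y hy).1
  have hlim : Tendsto (fun k => ((1 + η k) / (1 - η k)) ^ n * vol W) atTop (𝓝 (vol W)) := by
    have : Tendsto (fun k => (1 + η k) / (1 - η k)) atTop (𝓝 ((1 + 0) / (1 - 0))) :=
      (tendsto_const_nhds.add hη).div (tendsto_const_nhds.sub hη) (by norm_num)
    simpa using (this.pow n).mul_const (vol W)
  exact ge_of_tendsto hlim ((hη.eventually (gt_mem_nhds one_pos)).mono hbound)


/-- The inequality when the logarithmic combination is a zonoid. -/
theorem zonoid_ineq [IsFiniteMeasure μ] (hK : Body K) (hL : Body L) (hK0 : K ∈ nhds 0)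
    (hL0 : L ∈ nhds 0) (ht0 : 0 < t) (ht1 : t < 1) (hμ : Integrable (fun x => x) μ)
    (hw : ∀ v, supp (logC K L t) v = ∫ x, |v ⬝ᵥ x| ∂μ) :
    vol K ^ (1 - t) * vol L ^ t ≤ vol (logC K L t) := by
  classical
  have htI : t ∈ Icc (0:ℝ) 1 := ⟨ht0.le, ht1.le⟩
  set W := logC K L t
  have hW : Body W := body_logC hK hL htI
  set f := fun v => supp K v ^ (1 - t) * supp L v ^ t with hf
  have hfc : Continuous f :=
    (hK.continuous_supp.rpow_const fun _ => Or.inr (by linarith)).mul
      (hL.continuous_supp.rpow_const fun _ => Or.inr ht0.le)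
  have habs : ∀ {S : Set (Fin n → ℝ)}, Body S → ∀ c v, supp S (c • v) = |c| * supp S v := by
    intro S hS c v
    rcases le_total 0 c with hc | hc
    · rw [hS.supp_smul hc, abs_of_nonneg hc]
    · rw [← hS.supp_neg, ← neg_smul, hS.supp_smul (neg_nonneg.2 hc), abs_of_nonpos hc]
  have hfh : ∀ c v, f (c • v) = |c| * f v := fun c v => by
    simp only [hf, habs hK, habs hL]
    rw [Real.mul_rpow (abs_nonneg c) (hK.supp_nonneg v),
      Real.mul_rpow (abs_nonneg c) (hL.supp_nonneg v), mul_mul_mul_comm,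
      ← Real.rpow_add_of_nonneg (abs_nonneg c) (by linarith) ht0.le, sub_add_cancel, Real.rpow_one]
  have hfp : ∀ v, v ≠ 0 → 0 < f v := fun v hv => mul_pos
    (Real.rpow_pos_of_pos (hK.supp_pos hK0 hv) _) (Real.rpow_pos_of_pos (hL.supp_pos hL0 hv) _)
  have hle : ∀ v, supp W v ≤ f v := fun v => hW.supp_le fun x hx => hx v
  have hsub : K ∩ L ⊆ W := fun x hx v => by
    rcases le_total (v ⬝ᵥ x) 0 with h | h
    · exact h.trans (weighted_nonneg hK hL t v)
    · calc v ⬝ᵥ x = (v ⬝ᵥ x) ^ (1 - t) * (v ⬝ᵥ x) ^ t := by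
            rw [← Real.rpow_add_of_nonneg h (by linarith) ht0.le]; simp
        _ ≤ _ := mul_le_mul (Real.rpow_le_rpow h (hK.le_supp hx.1 v) (by linarith))
            (Real.rpow_le_rpow h (hL.le_supp hx.2 v) ht0.le) (Real.rpow_nonneg h _)
            (Real.rpow_nonneg (hK.supp_nonneg v) _)
  have hW0 : W ∈ nhds 0 := Filter.mem_of_superset (Filter.inter_mem hK0 hL0) hsub
  exact zonoid_core hK hL hK0 hL0 ht0 ht1 hμ hW hW0 hw fun u hu J hJc hJi hJs hJu =>
    facet_le hfc hfh hfp hμ hW hW0 (fun x hx => hx) hle hw hu J (fun y => y) hJc hJi hJs hJu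

end Vale.Agent.P227.Zonoid
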