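import Vale.Agent.P227.Zonoid.Radial

/-!
The logarithmic Minkowski inequality with a zonoid as reference body, by differentiating the
inequality for a zonoid dominating a geometric mean.
-/

noncomputable section

namespace Vale.Agent.P227.Zonoid

open Set Matrix MeasureTheory Filter Topology
open scoped ENNReal NNReal

variable {n : ℕ} {W L : Set (Fin n → ℝ)}

/-- The polar boundary. -/
def unitNormals (W : Set (Fin n → ℝ)) : Set (Fin n → ℝ) := {v | supp W v = 1}

/-- The body whose geometric mean with `L`, with weights `1/(1+a)` and `a/(1+a)`, lies below `W`. -/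
def tilt (W L : Set (Fin n → ℝ)) (a : ℝ) : Set (Fin n → ℝ) :=
  {x | ∀ v ∈ unitNormals W, v ⬝ᵥ x * supp L v ^ a ≤ 1}

theorem dot_le_gauge (hW : Body W) (h0 : W ∈ nhds 0) (v x : Fin n → ℝ) :
    v ⬝ᵥ x ≤ supp W v * gauge W x := by
  rcases eq_or_ne x 0 with rfl | hx
  · rw [dotProduct_zero, gauge_zero, mul_zero]
  have hp := gauge_pos' hW h0 hx
  have hm : (gauge W x)⁻¹ • x ∈ W := by
    refine hW.comp.isClosed.closure_subset ((gauge_le_one_iff_mem_closure hW.conv h0).1 ?_)
    rw [gauge_smul_of_nonneg (inv_nonneg.2 hp.le), smul_eq_mul, inv_mul_cancel₀ hp.ne']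
  have := hW.le_supp hm v
  rwa [dotProduct_smul, smul_eq_mul, inv_mul_le_iff₀ hp, mul_comm (gauge W x)] at this

theorem isCompact_unitNormals (hW : Body W) (h0 : W ∈ nhds 0) : IsCompact (unitNormals W) := by
  obtain ⟨c, hc, hlow⟩ := lower_supp hW h0
  refine Metric.isCompact_of_isClosed_isBounded (isClosed_eq hW.continuous_supp continuous_const) ?_
  refine (Metric.isBounded_closedBall (x := 0) (r := c⁻¹)).subset fun v (hv : supp W v = 1) => ?_
  rw [mem_closedBall_zero_iff, ← one_div, le_div_iff₀ hc, mul_comm, ← hv]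
  exact hlow v

theorem ne_zero_of_unitNormal (hW : Body W) {v : Fin n → ℝ} (hv : v ∈ unitNormals W) : v ≠ 0 := by
  rintro rfl
  have : supp W 0 = 0 * supp W 0 := by simpa using hW.supp_smul (le_refl (0:ℝ)) 0
  rw [zero_mul] at this
  exact one_ne_zero (hv.symm.trans this)

theorem scale_unitNormal (hW : Body W) (h0 : W ∈ nhds 0) {v : Fin n → ℝ} (hv : v ≠ 0) :
    (supp W v)⁻¹ • v ∈ unitNormals W := by
  show supp W _ = 1
  rw [hW.supp_smul (inv_nonneg.2 (hW.supp_nonneg v)), inv_mul_cancel₀ (hW.supp_pos h0 hv).ne']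

/-- A bound for the logarithm of `supp L` on the polar boundary. -/
theorem exists_log_bound (hW : Body W) (h0 : W ∈ nhds 0) (hL : Body L) (hL0 : L ∈ nhds 0) :
    ∃ C, 0 ≤ C ∧ ∀ v ∈ unitNormals W, |Real.log (supp L v)| ≤ C := by
  obtain ⟨C, hC⟩ := (isCompact_unitNormals hW h0).exists_bound_of_continuousOn
    (f := fun v => Real.log (supp L v)) (hL.continuous_supp.continuousOn.log fun v hv =>
      (hL.supp_pos hL0 (ne_zero_of_unitNormal hW hv)).ne')
  exact ⟨max C 0, le_max_right _ _, fun v hv => (hC v hv).trans (le_max_left _ _)⟩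

theorem rpow_bounds (hW : Body W) (hL : Body L) (hL0 : L ∈ nhds 0) {C a : ℝ}
    (hC : ∀ v ∈ unitNormals W, |Real.log (supp L v)| ≤ C) (ha : 0 ≤ a) {v : Fin n → ℝ}
    (hv : v ∈ unitNormals W) :
    Real.exp (-(C * a)) ≤ supp L v ^ a ∧ supp L v ^ a ≤ Real.exp (C * a) := by
  rw [Real.rpow_def_of_pos (hL.supp_pos hL0 (ne_zero_of_unitNormal hW hv))]
  have h := abs_le.1 (hC v hv)
  constructor <;> apply Real.exp_le_exp.2 <;> nlinarith

theorem body_tilt (hW : Body W) (h0 : W ∈ nhds 0) (hL : Body L) (hL0 : L ∈ nhds 0) {a : ℝ}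
    (ha : 0 ≤ a) : Body (tilt W L a) ∧ tilt W L a ∈ nhds 0 := by
  obtain ⟨C, -, hC⟩ := exists_log_bound hW h0 hL hL0
  have hpow := fun v (hv : v ∈ unitNormals W) => rpow_bounds hW hL hL0 hC ha hv
  have hsub : tilt W L a ⊆ (fun x => Real.exp (C * a) • x) '' W := by
    intro x hx
    refine ⟨(Real.exp (C * a))⁻¹ • x, mem_of_le_supp hW fun u => ?_,
      smul_inv_smul₀ (Real.exp_pos _).ne' x⟩
    rcases eq_or_ne u 0 with rfl | hu
    · rw [zero_dotProduct]; exact hW.supp_nonneg 0
    have hs := hW.supp_pos h0 hu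
    rw [dotProduct_smul, smul_eq_mul, inv_mul_le_iff₀ (Real.exp_pos _)]
    have h := hx _ (scale_unitNormal hW h0 hu)
    have hb := (hpow _ (scale_unitNormal hW h0 hu)).1
    rw [Real.exp_neg] at hb
    rcases le_or_gt (u ⬝ᵥ x) 0 with hneg | hpos
    · exact hneg.trans (by positivity)
    have h' : ((supp W u)⁻¹ • u) ⬝ᵥ x * (Real.exp (C * a))⁻¹ ≤ 1 :=
      (mul_le_mul_of_nonneg_left hb (by rw [smul_dotProduct, smul_eq_mul]; positivity)).trans h
    rw [smul_dotProduct, smul_eq_mul, mul_inv_le_iff₀ (Real.exp_pos _), one_mul,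
      inv_mul_le_iff₀ hs] at h'
    linarith
  refine ⟨⟨?_, ?_, ?_, ⟨0, fun v _ => by simp⟩⟩, ?_⟩
  · refine (hW.smul _).comp.of_isClosed_subset ?_ hsub
    simp only [tilt, Set.ofPred_forall]
    exact isClosed_iInter fun v => isClosed_iInter fun _ =>
      isClosed_le ((continuous_dot v).mul continuous_const) continuous_const
  · intro x hx y hy p q hp hq hpq v hv
    rw [dotProduct_add, dotProduct_smul, dotProduct_smul, smul_eq_mul, smul_eq_mul]
    nlinarith [hx v hv, hy v hv]
  · intro x hx v hv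
    have hmem : -v ∈ unitNormals W := by
      show supp W (-v) = 1
      rw [hW.supp_neg]; exact hv
    have := hx (-v) hmem
    rwa [hL.supp_neg, neg_dotProduct, ← dotProduct_neg] at this
  · refine Filter.mem_of_superset
      ((set_smul_mem_nhds_zero_iff (Real.exp_pos (-(C * a))).ne').2 h0) ?_
    rintro _ ⟨x, hx, rfl⟩ v hv
    have h1 : v ⬝ᵥ x ≤ 1 := (hW.le_supp hx v).trans_eq hv
    simp only [dotProduct_smul, smul_eq_mul]
    rcases le_or_gt (v ⬝ᵥ x) 0 with hneg | hpos
    · nlinarith [Real.exp_pos (-(C * a)), Real.rpow_nonneg (hL.supp_nonneg v) a,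
        mul_nonpos_of_nonpos_of_nonneg (mul_nonpos_of_nonneg_of_nonpos
          (Real.exp_pos (-(C * a))).le hneg) (Real.rpow_nonneg (hL.supp_nonneg v) a)]
    · calc Real.exp (-(C * a)) * v ⬝ᵥ x * supp L v ^ a ≤
            Real.exp (-(C * a)) * 1 * Real.exp (C * a) :=
            mul_le_mul (mul_le_mul_of_nonneg_left h1 (Real.exp_pos _).le) (hpow v hv).2
              (Real.rpow_nonneg (hL.supp_nonneg v) a) (by positivity)
        _ = 1 := by rw [mul_one, ← Real.exp_add, neg_add_cancel, Real.exp_zero]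

variable {μ : Measure (Fin n → ℝ)}

theorem tilt_ineq [IsFiniteMeasure μ] (hW : Body W) (h0 : W ∈ nhds 0) (hL : Body L)
    (hL0 : L ∈ nhds 0) (hμ : Integrable (fun x => x) μ)
    (hw : ∀ v, supp W v = ∫ x, |v ⬝ᵥ x| ∂μ) {a : ℝ} (ha : 0 < a) :
    vol (tilt W L a) ^ (1 - a / (1 + a)) * vol L ^ (a / (1 + a)) ≤ vol W := by
  obtain ⟨hT, hT0⟩ := body_tilt hW h0 hL hL0 ha.le
  refine zonoid_core hT hL hT0 hL0 (by positivity) ((div_lt_one (by positivity)).2 (by linarith))
    hμ hW h0 hw fun u hu _ _ _ _ _ => ?_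
  have hs := hW.supp_pos h0 hu
  have hl := hL.supp_pos hL0 hu
  have hsT : supp (tilt W L a) u ≤ supp W u ^ (1 + a) / supp L u ^ a := by
    refine hT.supp_le fun x hx => ?_
    have h := hx _ (scale_unitNormal hW h0 hu)
    rw [smul_dotProduct, smul_eq_mul, hL.supp_smul (inv_nonneg.2 hs.le),
      Real.mul_rpow (inv_nonneg.2 hs.le) hl.le, Real.inv_rpow hs.le] at h
    rw [Real.rpow_add hs, Real.rpow_one, le_div_iff₀ (Real.rpow_pos_of_pos hl a)]
    have := Real.rpow_pos_of_pos hs a
    field_simp at h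
    linarith
  calc supp (tilt W L a) u ^ (1 - a / (1 + a)) * supp L u ^ (a / (1 + a))
      ≤ (supp W u ^ (1 + a) / supp L u ^ a) ^ (1 - a / (1 + a)) * supp L u ^ (a / (1 + a)) := by
        refine mul_le_mul_of_nonneg_right (Real.rpow_le_rpow (hT.supp_nonneg u) hsT ?_)
          (Real.rpow_nonneg hl.le _)
        rw [sub_nonneg, div_le_one (by positivity)]; linarith
    _ = supp W u := by
        have e : 1 - a / (1 + a) = 1 / (1 + a) := by field_simp; ring
        rw [e, Real.div_rpow (Real.rpow_nonneg hs.le _) (Real.rpow_nonneg hl.le _),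
          ← Real.rpow_mul hs.le, ← Real.rpow_mul hl.le, mul_one_div_cancel (by positivity),
          Real.rpow_one, mul_one_div, div_mul_cancel₀ _ (Real.rpow_pos_of_pos hl _).ne']

/-- The outer normal, scaled to support value one. -/
def normal (W : Set (Fin n → ℝ)) (x : Fin n → ℝ) : Fin n → ℝ :=
  fun k => fderiv ℝ (gauge W) x (Pi.single k 1)

theorem normal_dot (W : Set (Fin n → ℝ)) (x y : Fin n → ℝ) :
    normal W x ⬝ᵥ y = fderiv ℝ (gauge W) x y := by
  conv_rhs => rw [pi_eq_sum_univ' y, map_sum]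
  simp only [map_smul, smul_eq_mul, dotProduct, normal]
  exact Finset.sum_congr rfl fun k _ => mul_comm _ _

theorem normal_spec (hW : Body W) (h0 : W ∈ nhds 0) {x : Fin n → ℝ} (hx : x ≠ 0)
    (hd : DifferentiableAt ℝ (gauge W) x) :
    normal W x ∈ unitNormals W ∧ normal W x ⬝ᵥ x = gauge W x ∧
      ∀ v ∈ unitNormals W, v ⬝ᵥ x = gauge W x → v = normal W x := by
  have hp := gauge_pos' hW h0 hx
  have huniq : ∀ v ∈ unitNormals W, v ⬝ᵥ x = gauge W x → v = normal W x := by
    intro v hv hvx
    set ψ : (Fin n → ℝ) →L[ℝ] ℝ := LinearMap.toContinuousLinearMap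
      { toFun := fun y => v ⬝ᵥ y, map_add' := dotProduct_add v,
        map_smul' := fun c y => dotProduct_smul c v y }
    have hmin : IsLocalMin (fun y => gauge W y - ψ y) x := Eventually.of_forall fun y => by
      show gauge W x - v ⬝ᵥ x ≤ gauge W y - v ⬝ᵥ y
      have := dot_le_gauge hW h0 v y
      rw [show supp W v = 1 from hv] at this
      linarith
    have := hmin.hasFDerivAt_eq_zero (hd.hasFDerivAt.sub ψ.hasFDerivAt)
    rw [sub_eq_zero] at this
    funext k
    rw [normal, this]
    exact (by simp [ψ] : v k = ψ (Pi.single k 1))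
  obtain ⟨v, hv, hvx⟩ : ∃ v ∈ unitNormals W, v ⬝ᵥ x = gauge W x := by
    obtain ⟨v₀, hv₀, hmax⟩ := (isCompact_unitNormals hW h0).exists_isMaxOn
      ⟨_, scale_unitNormal hW h0 hx⟩ (continuous_id.dotProduct continuous_const
        : Continuous fun v => v ⬝ᵥ x).continuousOn
    refine ⟨v₀, hv₀, le_antisymm ((dot_le_gauge hW h0 v₀ x).trans_eq (by
      rw [show supp W v₀ = 1 from hv₀, one_mul])) ?_⟩
    have hpos : 0 < v₀ ⬝ᵥ x := by
      refine lt_of_lt_of_le ?_ (hmax (scale_unitNormal hW h0 hx))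
      simp only [id_eq, smul_dotProduct, smul_eq_mul]
      exact mul_pos (inv_pos.2 (hW.supp_pos h0 hx))
        (lt_of_le_of_ne (Finset.sum_nonneg fun i _ => mul_self_nonneg _)
          fun h => hx (dotProduct_self_eq_zero.1 h.symm))
    have hmem : (v₀ ⬝ᵥ x)⁻¹ • x ∈ W := mem_of_le_supp hW fun u => by
      rcases eq_or_ne u 0 with rfl | hu
      · rw [zero_dotProduct]; exact hW.supp_nonneg 0
      have h := hmax (scale_unitNormal hW h0 hu)
      simp only [id_eq, mem_setOf_eq, smul_dotProduct, smul_eq_mul] at h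
      rw [inv_mul_le_iff₀ (hW.supp_pos h0 hu)] at h
      rw [dotProduct_smul, smul_eq_mul, inv_mul_le_iff₀ hpos]
      linarith
    have := gauge_le_one_of_mem hmem
    rwa [gauge_smul_of_nonneg (inv_nonneg.2 hpos.le), smul_eq_mul, inv_mul_le_iff₀ hpos,
      mul_one] at this
  obtain rfl := huniq v hv hvx
  exact ⟨hv, hvx, huniq⟩

/-- The gauge of the tilted body is a maximum over the polar boundary. -/
theorem gauge_tilt (hW : Body W) (h0 : W ∈ nhds 0) (hL : Body L) (hL0 : L ∈ nhds 0) {a : ℝ}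
    (ha : 0 ≤ a) {x : Fin n → ℝ} (hx : x ≠ 0) :
    ∃ v ∈ unitNormals W, gauge (tilt W L a) x = v ⬝ᵥ x * supp L v ^ a ∧
      ∀ u ∈ unitNormals W, u ⬝ᵥ x * supp L u ^ a ≤ gauge (tilt W L a) x := by
  obtain ⟨hT, hT0⟩ := body_tilt hW h0 hL hL0 ha
  have hp := gauge_pos' hT hT0 hx
  have hmem : (gauge (tilt W L a) x)⁻¹ • x ∈ tilt W L a := by
    refine hT.comp.isClosed.closure_subset ((gauge_le_one_iff_mem_closure hT.conv hT0).1 ?_)
    rw [gauge_smul_of_nonneg (inv_nonneg.2 hp.le), smul_eq_mul, inv_mul_cancel₀ hp.ne']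
  have hub : ∀ u ∈ unitNormals W, u ⬝ᵥ x * supp L u ^ a ≤ gauge (tilt W L a) x := by
    intro u hu
    have := hmem u hu
    rwa [dotProduct_smul, smul_eq_mul, mul_assoc, inv_mul_le_iff₀ hp, mul_one] at this
  obtain ⟨v, hv, hmax⟩ := (isCompact_unitNormals hW h0).exists_isMaxOn
    ⟨_, scale_unitNormal hW h0 hx⟩ (((continuous_id.dotProduct continuous_const
      : Continuous fun v => v ⬝ᵥ x).mul (hL.continuous_supp.rpow_const fun _ =>
        Or.inr ha)).continuousOn)
  refine ⟨v, hv, le_antisymm ?_ (hub v hv), hub⟩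
  have hpos : 0 < v ⬝ᵥ x * supp L v ^ a := by
    refine lt_of_lt_of_le ?_ (hmax (scale_unitNormal hW h0 hx))
    simp only [Pi.mul_apply, id_eq, smul_dotProduct, smul_eq_mul]
    refine mul_pos (mul_pos (inv_pos.2 (hW.supp_pos h0 hx))
      (lt_of_le_of_ne (Finset.sum_nonneg fun i _ => mul_self_nonneg _)
        fun h => hx (dotProduct_self_eq_zero.1 h.symm))) (Real.rpow_pos_of_pos
      (hL.supp_pos hL0 (ne_zero_of_unitNormal hW (scale_unitNormal hW h0 hx))) a)
  have hm : (v ⬝ᵥ x * supp L v ^ a)⁻¹ • x ∈ tilt W L a := fun u hu => by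
    rw [dotProduct_smul, smul_eq_mul, mul_assoc, inv_mul_le_iff₀ hpos, mul_one]
    exact hmax hu
  have := gauge_le_one_of_mem hm
  rwa [gauge_smul_of_nonneg (inv_nonneg.2 hpos.le), smul_eq_mul, inv_mul_le_iff₀ hpos,
    mul_one] at this

theorem ae_good (hn : n ≠ 0) (hW : Body W) (h0 : W ∈ nhds 0) :
    ∀ᵐ x ∂(volume : Measure (Fin n → ℝ)).restrict W,
      x ≠ 0 ∧ DifferentiableAt ℝ (gauge W) x := by
  obtain ⟨C, hC⟩ := hW.conv.lipschitz_gauge h0
  have : Nonempty (Fin n) := ⟨⟨0, Nat.pos_of_ne_zero hn⟩⟩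
  refine ae_restrict_of_ae ?_
  filter_upwards [hC.ae_differentiableAt (μ := volume), Measure.ae_ne volume (0 : Fin n → ℝ)]
    with x h1 h2 using ⟨h2, h1⟩

/-- The logarithmic Minkowski inequality at a zonoid. -/
theorem log_minkowski [IsFiniteMeasure μ] (hn : n ≠ 0) (hW : Body W) (h0 : W ∈ nhds 0)
    (hL : Body L) (hL0 : L ∈ nhds 0) (hμ : Integrable (fun x => x) μ)
    (hw : ∀ v, supp W v = ∫ x, |v ⬝ᵥ x| ∂μ) :
    Real.log (vol L / vol W) ≤
      n * ⨍ x in W, Real.log (supp L (normal W x)) := by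
  classical
  obtain ⟨C, hC0, hC⟩ := exists_log_bound hW h0 hL hL0
  set μW := (volume : Measure (Fin n → ℝ)).restrict W
  have : IsFiniteMeasure μW := ⟨by simpa [μW] using hW.comp.measure_lt_top⟩
  have hVW := vol_pos hW.comp h0
  have hVL := vol_pos hL.comp hL0
  set a : ℕ → ℝ := fun k => 1 / (k + 1)
  have ha : ∀ k, 0 < a k := fun k => by positivity
  have hat : Tendsto a atTop (𝓝 0) := tendsto_one_div_add_atTop_nhds_zero_nat
  set D : ℕ → (Fin n → ℝ) → ℝ := fun k x =>
    (Real.log (gauge (tilt W L (a k)) x) - Real.log (gauge W x)) / a k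
  have hDm : ∀ k, AEStronglyMeasurable (D k) μW := fun k => by
    obtain ⟨hT, hT0⟩ := body_tilt hW h0 hL hL0 (ha k).le
    exact (((continuous_gauge' hT hT0).measurable.log).sub
      (continuous_gauge' hW h0).measurable.log |>.div_const _).aestronglyMeasurable
  -- pointwise bounds and convergence
  have hpt : ∀ x, x ≠ 0 → DifferentiableAt ℝ (gauge W) x →
      (∀ k, |D k x| ≤ C) ∧ Tendsto (fun k => D k x) atTop (𝓝 (Real.log (supp L (normal W x)))) := by
    intro x hx hd
    obtain ⟨hν, hνx, huniq⟩ := normal_spec hW h0 hx hd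
    have hG := gauge_pos' hW h0 hx
    choose v hv hve hvub using fun k => gauge_tilt hW h0 hL hL0 (ha k).le hx
    have hlp : ∀ u ∈ unitNormals W, 0 < supp L u := fun u hu =>
      hL.supp_pos hL0 (ne_zero_of_unitNormal hW hu)
    have hlow : ∀ k, Real.log (supp L (normal W x)) ≤ D k x := fun k => by
      have hpos : 0 < normal W x ⬝ᵥ x * supp L (normal W x) ^ a k := by
        rw [hνx]; exact mul_pos hG (Real.rpow_pos_of_pos (hlp _ hν) _)
      have h := Real.log_le_log hpos (hvub k _ hν)
      rw [Real.log_mul (by rw [hνx]; exact hG.ne') (Real.rpow_pos_of_pos (hlp _ hν) _).ne',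
        Real.log_rpow (hlp _ hν), hνx] at h
      simp only [D]
      rw [le_div_iff₀ (ha k)]
      linarith
    have hvpos : ∀ k, 0 < v k ⬝ᵥ x := fun k => by
      have h1 : 0 < gauge (tilt W L (a k)) x :=
        gauge_pos' (body_tilt hW h0 hL hL0 (ha k).le).1 (body_tilt hW h0 hL hL0 (ha k).le).2 hx
      rw [hve k] at h1
      exact (mul_pos_iff_of_pos_right (Real.rpow_pos_of_pos (hlp _ (hv k)) _)).1 h1
    have hDe : ∀ k, D k x = (Real.log (v k ⬝ᵥ x) - Real.log (gauge W x)) / a k +
        Real.log (supp L (v k)) := fun k => by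
      simp only [D, hve k]
      rw [Real.log_mul (hvpos k).ne' (Real.rpow_pos_of_pos (hlp _ (hv k)) _).ne',
        Real.log_rpow (hlp _ (hv k))]
      field_simp [(ha k).ne']
      ring
    have hvle : ∀ k, v k ⬝ᵥ x ≤ gauge W x := fun k => by
      have := dot_le_gauge hW h0 (v k) x
      rwa [show supp W (v k) = 1 from hv k, one_mul] at this
    have hup : ∀ k, D k x ≤ Real.log (supp L (v k)) := fun k => by
      rw [hDe k]
      have : (Real.log (v k ⬝ᵥ x) - Real.log (gauge W x)) / a k ≤ 0 :=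
        div_nonpos_of_nonpos_of_nonneg (sub_nonpos.2 (Real.log_le_log (hvpos k) (hvle k)))
          (ha k).le
      linarith
    refine ⟨fun k => abs_le.2 ⟨(abs_le.1 (hC _ hν)).1.trans (hlow k),
      (hup k).trans (abs_le.1 (hC _ (hv k))).2⟩, ?_⟩
    have hgap : ∀ k, gauge W x * Real.exp (-(2 * C * a k)) ≤ v k ⬝ᵥ x := fun k => by
      rw [← Real.log_le_log_iff (by positivity) (hvpos k),
        Real.log_mul hG.ne' (Real.exp_pos _).ne', Real.log_exp]
      have h1 := hlow k
      rw [hDe k, ← sub_le_iff_le_add, le_div_iff₀ (ha k)] at h1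
      nlinarith [(abs_le.1 (hC _ hν)).1, (abs_le.1 (hC _ (hv k))).2, ha k]
    have hvd : Tendsto (fun k => v k ⬝ᵥ x) atTop (𝓝 (gauge W x)) := by
      refine tendsto_of_tendsto_of_tendsto_of_le_of_le ?_ tendsto_const_nhds hgap hvle
      simpa using (((hat.const_mul (2 * C)).neg).rexp.const_mul (gauge W x))
    have hvt : Tendsto v atTop (𝓝 (normal W x)) := by
      refine tendsto_of_subseq_tendsto fun ns hns => ?_
      obtain ⟨w, hw', φ, hφ, hlim⟩ :=
        (isCompact_unitNormals hW h0).tendsto_subseq fun k => hv (ns k)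
      refine ⟨φ, ?_⟩
      have e : w = normal W x := huniq w hw' <| tendsto_nhds_unique
        (((continuous_id.dotProduct continuous_const : Continuous fun v => v ⬝ᵥ x).tendsto w).comp
          hlim) (hvd.comp (hns.comp hφ.tendsto_atTop))
      exact e ▸ hlim
    exact tendsto_of_tendsto_of_tendsto_of_le_of_le tendsto_const_nhds
      ((((hL.continuous_supp.tendsto _).log (hlp _ hν).ne')).comp hvt) hlow hup
  -- the inequality for each parameter
  have hk : ∀ k, Real.log (vol L / vol W) ≤ n * ⨍ x in W, D k x := by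
    intro k
    obtain ⟨hT, hT0⟩ := body_tilt hW h0 hL hL0 (ha k).le
    have hVT := vol_pos hT.comp hT0
    set m := ⨍ x in W, D k x
    have hDi : Integrable (D k) μW := Integrable.of_bound (hDm k) C (by
      filter_upwards [ae_good hn hW h0] with x hx
      exact (hpt x hx.1 hx.2).1 k)
    have hmI : ∫ x in W, D k x = vol W * m := by
      simp only [m, setAverage_eq, smul_eq_mul, measureReal_def]
      show _ = vol W * ((vol W)⁻¹ * _)
      field_simp
    set F : (Fin n → ℝ) → ℝ := fun x => (gauge W x / gauge (tilt W L (a k)) x) ^ n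
    have hFe : ∀ᵐ x ∂μW, F x = Real.exp (-(n * (a k * D k x))) := by
      filter_upwards [ae_good hn hW h0] with x hx
      have h1 := gauge_pos' hW h0 hx.1
      have h2 := gauge_pos' hT hT0 hx.1
      simp only [F, D]
      rw [mul_div_cancel₀ _ (ha k).ne', ← mul_neg, Real.exp_nat_mul, neg_sub, Real.exp_sub,
        Real.exp_log h1, Real.exp_log h2]
    have hFi : Integrable F μW := by
      refine Integrable.of_bound (((continuous_gauge' hW h0).measurable.div
        (continuous_gauge' hT hT0).measurable).pow_const _).aestronglyMeasurable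
        (Real.exp (n * (a k * C))) ?_
      filter_upwards [hFe, ae_good hn hW h0] with x hx hx'
      rw [hx, Real.norm_of_nonneg (Real.exp_pos _).le, Real.exp_le_exp, ← mul_neg]
      refine mul_le_mul_of_nonneg_left ?_ (Nat.cast_nonneg n)
      rw [← mul_neg]
      exact mul_le_mul_of_nonneg_left (by linarith [(abs_le.1 ((hpt x hx'.1 hx'.2).1 k)).1])
        (ha k).le
    have hJ : Real.exp (-(n * (a k * m))) * vol W ≤ vol (tilt W L (a k)) := by
      rw [vol_eq_integral_ratio hn hW h0 hT hT0]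
      set e := Real.exp (-(n * (a k * m)))
      have hconst : IntegrableOn (fun _ : Fin n → ℝ => e * (1 + n * (a k * m))) W :=
        integrableOn_const hW.comp.measure_lt_top.ne
      calc e * vol W = ∫ x in W, (e * (1 + n * (a k * m)) - e * (n * a k) * D k x) := by
            rw [integral_sub hconst (hDi.const_mul _), setIntegral_const, integral_const_mul (e * (n * a k)),
              hmI, smul_eq_mul, measureReal_def]
            show _ = vol W * _ - _
            ring
        _ ≤ _ := by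
            refine integral_mono_ae (hconst.sub (hDi.const_mul _)) hFi ?_
            filter_upwards [hFe] with x hx
            show _ ≤ F x
            rw [hx, show -(n * (a k * D k x) : ℝ) =
              -(n * (a k * m)) + (n * (a k * m) - n * (a k * D k x)) by ring, Real.exp_add]
            refine le_trans (le_of_eq ?_) (mul_le_mul_of_nonneg_left
              (Real.add_one_le_exp _) (Real.exp_pos _).le)
            show e * _ - _ = e * _
            ring
    have h := Real.log_le_log (mul_pos (Real.rpow_pos_of_pos hVT _) (Real.rpow_pos_of_pos hVL _))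
      (tilt_ineq hW h0 hL hL0 hμ hw (ha k))
    rw [Real.log_mul (Real.rpow_pos_of_pos hVT _).ne' (Real.rpow_pos_of_pos hVL _).ne',
      Real.log_rpow hVT, Real.log_rpow hVL] at h
    have h' := Real.log_le_log (by positivity) hJ
    rw [Real.log_mul (Real.exp_pos _).ne' hVW.ne', Real.log_exp] at h'
    rw [Real.log_div hVL.ne' hVW.ne']
    have hak := ha k
    field_simp at h
    nlinarith [ha k]
  -- the limit
  have hlim : Tendsto (fun k => (n : ℝ) * ⨍ x in W, D k x) atTop
      (𝓝 (n * ⨍ x in W, Real.log (supp L (normal W x)))) := by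
    simp only [setAverage_eq]
    refine (Tendsto.const_smul ?_ _).const_mul _
    refine tendsto_integral_of_dominated_convergence (fun _ => C) hDm (integrable_const C)
      (fun k => ?_) ?_
    · filter_upwards [ae_good hn hW h0] with x hx
      exact (hpt x hx.1 hx.2).1 k
    · filter_upwards [ae_good hn hW h0] with x hx
      exact (hpt x hx.1 hx.2).2
  exact ge_of_tendsto' hlim hk

end Vale.Agent.P227.Zonoid
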