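import Vale.Agent.P227.Zonoid.Limit

/-!
Volumes of gauge balls as integrals of a power of the ratio of two gauges.
-/

noncomputable section

namespace Vale.Agent.P227.Zonoid

open Set Matrix MeasureTheory Filter Topology Metric
open scoped ENNReal

variable {n : ℕ}

theorem gauge_pos' {W : Set (Fin n → ℝ)} (hW : Body W) (h0 : W ∈ nhds 0) {x : Fin n → ℝ}
    (hx : x ≠ 0) : 0 < gauge W x :=
  (gauge_pos (absorbent_nhds_zero h0)
    ((NormedSpace.isVonNBounded_iff ℝ).2 hW.comp.isBounded)).2 hx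

theorem continuous_gauge' {W : Set (Fin n → ℝ)} (hW : Body W) (h0 : W ∈ nhds 0) :
    Continuous (gauge W) := continuous_gauge hW.conv h0

theorem gauge_smul_pos (W : Set (Fin n → ℝ)) {c : ℝ} (hc : 0 < c) (x : Fin n → ℝ) :
    gauge W (c • x) = c * gauge W x := gauge_smul_of_nonneg hc.le x

/-- Polar coordinates for a positively `0`-homogeneous function on a gauge ball. -/
theorem lintegral_gauge_ball {m : ℕ} {W : Set (Fin (m + 1) → ℝ)} (hW : Body W) (h0 : W ∈ nhds 0)
    {F : (Fin (m + 1) → ℝ) → ℝ} (hF : Measurable F)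
    (hFh : ∀ (c : ℝ) x, 0 < c → F (c • x) = F x) :
    ∫⁻ x in interior W, ENNReal.ofReal (F x) =
      ∫⁻ θ, ENNReal.ofReal (F θ) * ENNReal.ofReal ((gauge W θ)⁻¹ ^ (m + 1) / (m + 1))
        ∂(volume : Measure (Fin (m + 1) → ℝ)).toSphere := by
  set μ : Measure (Fin (m + 1) → ℝ) := volume
  set g : (Fin (m + 1) → ℝ) → ℝ≥0∞ := (interior W).indicator fun x => ENNReal.ofReal (F x) with hg
  have hFo : Measurable fun x => ENNReal.ofReal (F x) := ENNReal.measurable_ofReal.comp hF
  have hgm : Measurable g := hFo.indicator (isOpen_interior (s := W)).measurableSet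
  set e := homeomorphUnitSphereProd (Fin (m + 1) → ℝ)
  have hep := μ.measurePreserving_homeomorphUnitSphereProd
  have hsm : Measurable fun p : sphere (0 : (Fin (m + 1) → ℝ)) 1 × Ioi (0:ℝ) => g (p.2.1 • p.1.1) :=
    hgm.comp (Continuous.measurable (by fun_prop))
  have h1 : ∫⁻ x, g x ∂μ = ∫⁻ p, g (p.2.1 • p.1.1)
      ∂(μ.toSphere.prod (Measure.volumeIoiPow (Module.finrank ℝ (Fin (m + 1) → ℝ) - 1))) := by
    rw [← hep.lintegral_comp hsm]
    conv_lhs => rw [← restrict_compl_singleton (μ := μ) (0 : (Fin (m + 1) → ℝ)),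
      ← lintegral_subtype_comap (measurableSet_singleton _).compl]
    refine lintegral_congr fun x => ?_
    congr 1
    exact (congrArg Subtype.val (e.symm_apply_apply x)).symm
  rw [← lintegral_indicator isOpen_interior.measurableSet]
  refine h1.trans ?_
  rw [lintegral_prod _ hsm.aemeasurable]
  refine lintegral_congr fun θ => ?_
  have hθ : (θ : (Fin (m + 1) → ℝ)) ≠ 0 := ne_zero_of_mem_unit_sphere θ
  have hp := gauge_pos' hW h0 hθ
  obtain ⟨r₀, hr₀⟩ : ∃ r₀ : Ioi (0:ℝ), r₀.1 = (gauge W θ)⁻¹ :=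
    ⟨⟨_, Set.mem_Ioi.2 (inv_pos.2 hp)⟩, rfl⟩
  have hpt : ∀ r : Ioi (0:ℝ), g (r.1 • θ.1) =
      (Iio r₀).indicator
        (fun _ => ENNReal.ofReal (F θ)) r := fun r => by
    have hiff : r.1 • θ.1 ∈ interior W ↔ r < r₀ := by
      rw [← gauge_lt_one_iff_mem_interior hW.conv h0, gauge_smul_pos W r.2, ← lt_div_iff₀ hp,
        one_div, ← hr₀]
      rfl
    by_cases h : r.1 • θ.1 ∈ interior W
    · rw [hg, indicator_of_mem h, indicator_of_mem (s := Iio r₀) (hiff.1 h), hFh _ _ r.2]
    · rw [hg, indicator_of_notMem h, indicator_of_notMem (s := Iio r₀) (fun h' => h (hiff.2 h'))]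
  simp only [hpt]
  rw [lintegral_indicator_const measurableSet_Iio, Measure.volumeIoiPow_apply_Iio, hr₀]
  simp

theorem setIntegral_interior {W : Set (Fin n → ℝ)} (hW : Body W) :
    (volume : Measure (Fin n → ℝ)).restrict (interior W) = volume.restrict W :=
  Measure.restrict_congr_set (interior_ae_eq_of_null_frontier (hW.conv.addHaar_frontier volume))

/-- The volume of a gauge ball as an integral over another one. -/
theorem vol_eq_integral_ratio {W V : Set (Fin n → ℝ)} (hn : n ≠ 0) (hW : Body W) (hW0 : W ∈ nhds 0)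
    (hV : Body V) (hV0 : V ∈ nhds 0) :
    vol V = ∫ x in W, (gauge W x / gauge V x) ^ n := by
  obtain ⟨m, rfl⟩ := Nat.exists_eq_succ_of_ne_zero hn
  set F : (Fin (m + 1) → ℝ) → ℝ := fun x => (gauge W x / gauge V x) ^ (m + 1)
  have hFm : Measurable F :=
    ((continuous_gauge' hW hW0).measurable.div (continuous_gauge' hV hV0).measurable).pow_const _
  have h1 := lintegral_gauge_ball hV hV0 (F := fun _ => 1) measurable_const fun _ _ _ => rfl
  have h2 := lintegral_gauge_ball hW hW0 hFm fun c x hc => by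
    simp only [F, gauge_smul_pos _ hc, mul_div_mul_left _ _ hc.ne']
  have h3 : ∫⁻ x in interior W, ENNReal.ofReal (F x) = volume V := by
    rw [h2, ← measure_congr (interior_ae_eq_of_null_frontier (hV.conv.addHaar_frontier volume))]
    rw [ENNReal.ofReal_one, setLIntegral_one] at h1
    rw [h1]
    refine lintegral_congr fun θ => ?_
    have hθ : (θ : Fin (m + 1) → ℝ) ≠ 0 := ne_zero_of_mem_unit_sphere θ
    have hw := gauge_pos' hW hW0 hθ
    have hv := gauge_pos' hV hV0 hθ
    rw [one_mul, ← ENNReal.ofReal_mul (by positivity)]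
    congr 1
    simp only [F, div_pow, inv_pow]
    field_simp
  rw [integral_eq_lintegral_of_nonneg_ae
    (Eventually.of_forall fun x =>
      pow_nonneg (div_nonneg (gauge_nonneg x) (gauge_nonneg x)) _) hFm.aestronglyMeasurable,
    ← setIntegral_interior hW, h3]
  rfl

end Vale.Agent.P227.Zonoid
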