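import Vale.Agent.P227.Weighted
import Vale.Agent.P254.BM

/-!
Volumes of sums of segments in every dimension: the projection formula, the first Minkowski
inequality against a zonotope and the log-convexity in the lengths.
-/

noncomputable section

namespace Vale.Agent.P227.Zonoid

open Set Matrix MeasureTheory Pointwise
open scoped ENNReal

variable {n : ℕ}

/-- The real volume. -/
def vol (S : Set (Fin n → ℝ)) : ℝ := (volume S).toReal

theorem vol_nonneg (S : Set (Fin n → ℝ)) : 0 ≤ vol S := ENNReal.toReal_nonneg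

theorem vol_mono {S T : Set (Fin n → ℝ)} (hT : IsCompact T) (h : S ⊆ T) : vol S ≤ vol T :=
  ENNReal.toReal_mono hT.measure_lt_top.ne (measure_mono h)

theorem vol_smul (S : Set (Fin n → ℝ)) {c : ℝ} (hc : 0 ≤ c) :
    vol ((fun x => c • x) '' S) = c ^ n * vol S := by
  simp only [vol, Set.image_smul]
  rw [Measure.addHaar_smul_of_nonneg volume hc, ENNReal.toReal_mul,
    ENNReal.toReal_ofReal (by positivity), Module.finrank_fin_fun]

theorem vol_pos {S : Set (Fin n → ℝ)} (hc : IsCompact S) (h0 : S ∈ nhds 0) : 0 < vol S :=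
  ENNReal.toReal_pos (Measure.measure_pos_of_mem_nhds volume h0).ne' hc.measure_lt_top.ne

theorem vol_dim_zero {S : Set (Fin 0 → ℝ)} (hS : S.Nonempty) : vol S = 1 := by
  rw [vol, Subsingleton.eq_univ_of_nonempty hS]; simp [volume_pi]

theorem body_linImage {m : ℕ} {K : Set (Fin m → ℝ)} (h : Body K)
    (P : (Fin m → ℝ) →ₗ[ℝ] (Fin n → ℝ)) : Body (P '' K) where
  comp := h.comp.image P.continuous_of_finiteDimensional
  conv := h.conv.linear_image P
  symm := by rintro _ ⟨x, hx, rfl⟩; exact ⟨-x, h.symm x hx, map_neg P x⟩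
  ne := h.ne.image _

theorem linImage_seg {m : ℕ} (P : (Fin m → ℝ) →ₗ[ℝ] (Fin n → ℝ)) (a : Fin m → ℝ) :
    P '' seg a = seg (P a) := by
  rw [seg, seg, image_image]
  exact image_congr fun t _ => map_smul P t a

theorem linImage_sum {ι : Type*} {m : ℕ} (P : (Fin m → ℝ) →ₗ[ℝ] (Fin n → ℝ)) (s : Finset ι)
    (a : ι → Fin m → ℝ) : P '' (∑ i ∈ s, seg (a i)) = ∑ i ∈ s, seg (P (a i)) := by
  classical
  induction s using Finset.induction with
  | empty => simp [Set.image_singleton, ← Set.singleton_zero]
  | insert k s hk ih =>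
    rw [Finset.sum_insert hk, Finset.sum_insert hk, ← ih, ← linImage_seg P]
    exact Set.image_add P

theorem seg_zero : seg (0 : Fin n → ℝ) = 0 := by
  rw [seg, ← Set.singleton_zero]
  simp

theorem sum_filter_ne {ι : Type*} (s : Finset ι) (a : ι → Fin n → ℝ) [DecidablePred fun i => a i ≠ 0] :
    ∑ i ∈ s.filter (fun i => a i ≠ 0), seg (a i) = ∑ i ∈ s, seg (a i) := by
  refine Finset.sum_subset (Finset.filter_subset _ _) fun i hi hn => ?_
  rw [Finset.mem_filter, not_and, not_not] at hn
  rw [hn hi, seg_zero]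

/-- Fibres in the last coordinate of a body plus a vertical segment. -/
theorem volume_add_vert {X : Set (Fin (n + 1) → ℝ)} (hc : IsCompact X) (hx : Convex ℝ X) {c : ℝ}
    (hc0 : 0 ≤ c) :
    volume (X + seg (c • Pi.single (Fin.last n) 1)) =
      volume X + ENNReal.ofReal (2 * c) * volume ((fun x : Fin (n + 1) → ℝ => Fin.init x) '' X) := by
  set e : Fin (n + 1) → ℝ := c • Pi.single (Fin.last n) 1 with he
  let fib : Set (Fin (n + 1) → ℝ) → (Fin n → ℝ) → Set ℝ := fun S z => {t | Fin.snoc z t ∈ S}
  have hfub : ∀ S : Set (Fin (n + 1) → ℝ), MeasurableSet S →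
      volume S = ∫⁻ z, volume (fib S z) := by
    intro S hS
    have h := (volume_preserving_piFinSuccAbove (fun _ : Fin (n + 1) => ℝ) (Fin.last n)).symm
    rw [← h.measure_preimage hS.nullMeasurableSet, Measure.volume_eq_prod,
      Measure.prod_apply_symm (measurableSet_split hS)]
    refine lintegral_congr fun z => congrArg _ ?_
    ext t
    simp [fib, MeasurableEquiv.piFinSuccAbove_symm_apply, Fin.snocEquiv]
  have hP : IsCompact ((fun x : Fin (n + 1) → ℝ => Fin.init x) '' X) :=
    hc.image (continuous_pi fun i : Fin n => continuous_apply i.castSucc)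
  have hcont : ∀ z : Fin n → ℝ, Continuous fun t : ℝ => (Fin.snoc z t : Fin (n + 1) → ℝ) := by
    intro z
    refine continuous_pi fun i => ?_
    refine Fin.lastCases ?_ (fun j => ?_) i
    · simp only [Fin.snoc_last]; exact continuous_id
    · simp only [Fin.snoc_castSucc]; exact continuous_const
  have hpt : ∀ z, volume (fib (X + seg e) z) = volume (fib X z) +
      ((fun x : Fin (n + 1) → ℝ => Fin.init x) '' X).indicator
        (fun _ => ENNReal.ofReal (2 * c)) z := by
    intro z
    have hsum : fib (X + seg e) z = fib X z + Icc (-c) c := by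
      ext t
      simp only [fib, mem_ofPred_eq, mem_add, seg, mem_image]
      constructor
      · rintro ⟨x, hxX, _, ⟨s, hs, rfl⟩, h⟩
        have hinit : Fin.init x = z := funext fun i => by
          have := congrFun h i.castSucc
          simp [he, Fin.castSucc_ne_last] at this
          simpa [Fin.init] using this
        have hlast := congrFun h (Fin.last n)
        simp [he] at hlast
        refine ⟨x (Fin.last n), by rw [← hinit, Fin.snoc_init_self]; exact hxX, s * c,
          ⟨by nlinarith [hs.1], by nlinarith [hs.2]⟩, hlast⟩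
      · rintro ⟨p, hp, q, hq, rfl⟩
        rcases hc0.eq_or_lt with h | h
        · subst h
          have : q = 0 := le_antisymm hq.2 (by simpa using hq.1)
          refine ⟨_, hp, 0, ⟨0, by simp, zero_smul _ _⟩, ?_⟩
          simp [this]
        refine ⟨_, hp, (q / c) • e, ⟨q / c, ⟨by rw [le_div_iff₀ h]; linarith [hq.1],
          by rw [div_le_iff₀ h]; linarith [hq.2]⟩, rfl⟩, ?_⟩
        funext i
        refine Fin.lastCases ?_ (fun j => ?_) i
        · simp [he, div_mul_cancel₀ _ h.ne']
        · simp [he, Fin.castSucc_ne_last]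
    by_cases hz : z ∈ (fun x : Fin (n + 1) → ℝ => Fin.init x) '' X
    · obtain ⟨x, hxX, rfl⟩ := hz
      have hne : (fib X (Fin.init x)).Nonempty := ⟨x (Fin.last n), by simpa [fib] using hxX⟩
      have hcl : IsCompact (fib X (Fin.init x)) :=
        (hc.image (continuous_apply (Fin.last n))).of_isClosed_subset
          (hc.isClosed.preimage (hcont _)) fun t ht => ⟨_, ht, by simp⟩
      have hcv : Convex ℝ (fib X (Fin.init x)) := by
        intro a ha b hb s t hs ht hst
        show Fin.snoc (Fin.init x) (s • a + t • b) ∈ X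
        convert hx ha hb hs ht hst using 1
        funext i
        refine Fin.lastCases ?_ (fun j => ?_) i
        · simp
        · simp [← add_mul, hst]
      have hI := eq_Icc_of_connected_compact ⟨hne, hcv.isPreconnected⟩ hcl
      set l := sInf (fib X (Fin.init x))
      set r := sSup (fib X (Fin.init x))
      have hlr : l ≤ r := by rw [hI] at hne; exact nonempty_Icc.1 hne
      rw [hsum, hI, Icc_add_Icc hlr (by linarith), indicator_of_mem (Set.mem_image_of_mem (fun x : Fin (n + 1) → ℝ => Fin.init x) hxX),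
        Real.volume_Icc, Real.volume_Icc, ← ENNReal.ofReal_add (by linarith) (by linarith)]
      congr 1
      ring
    · have hemp : fib X z = ∅ := eq_empty_of_forall_notMem fun t ht => hz ⟨_, ht, by simp⟩
      rw [hsum, hemp, indicator_of_notMem hz]
      simp
  rw [hfub _ (hc.add (body_seg e).comp).measurableSet, hfub _ hc.measurableSet]
  simp only [hpt]
  rw [lintegral_add_right _ ((measurable_const).indicator hP.measurableSet),
    lintegral_indicator hP.measurableSet, setLIntegral_const]

/-- A projection along `a` with the factor which turns projected volumes into growth rates. -/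
structure Proj {m : ℕ} (n : ℕ) (a : Fin m → ℝ) where
  P : (Fin m → ℝ) →ₗ[ℝ] (Fin n → ℝ)
  κ : ℝ
  pos : 0 < κ
  surj : Function.Surjective P
  ker : P a = 0
  formula : ∀ X : Set (Fin m → ℝ), IsCompact X → Convex ℝ X → ∀ c : ℝ, 0 ≤ c →
    vol (X + seg (c • a)) = vol X + 2 * c * κ * vol (P '' X)

theorem exists_proj {a : Fin (n + 1) → ℝ} (ha : a ≠ 0) : Nonempty (Proj n a) := by
  obtain ⟨i, hi⟩ := Function.ne_iff.1 ha
  rw [Pi.zero_apply] at hi
  let T : (Fin (n + 1) → ℝ) →ₗ[ℝ] (Fin (n + 1) → ℝ) :=
    { toFun := fun z => z (Fin.last n) • a + i.insertNth 0 (Fin.init z)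
      map_add' := fun x y => by
        funext k
        refine Fin.succAboveCases i ?_ (fun j => ?_) k
        · simp [add_mul]
        · simp [Fin.init, add_mul]; ring
      map_smul' := fun c x => by
        funext k
        refine Fin.succAboveCases i ?_ (fun j => ?_) k
        · simp [mul_assoc]
        · simp [Fin.init, mul_add, mul_assoc] }
  have hTinj : Function.Injective T := fun x y h => by
    have hl : x (Fin.last n) = y (Fin.last n) := by
      have := congrFun h i
      simpa [T, hi] using this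
    funext k
    refine Fin.lastCases ?_ (fun j => ?_) k
    · exact hl
    · have := congrFun h (i.succAbove j)
      simpa [T, hl, Fin.init] using this
  let e := LinearEquiv.ofBijective T ⟨hTinj, LinearMap.injective_iff_surjective.1 hTinj⟩
  let init : (Fin (n + 1) → ℝ) →ₗ[ℝ] (Fin n → ℝ) :=
    LinearMap.funLeft ℝ ℝ (Fin.castSucc : Fin n → Fin (n + 1))
  have hTe : T (Pi.single (Fin.last n) 1) = a := by
    funext k
    refine Fin.succAboveCases i ?_ (fun j => ?_) k
    · simp [T]
    · simp [T, Fin.init, Fin.castSucc_ne_last]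
  have hdet : LinearMap.det T ≠ 0 := e.isUnit_det'.ne_zero
  have himg : ∀ S : Set (Fin (n + 1) → ℝ), vol (T '' S) = |LinearMap.det T| * vol S := fun S => by
    rw [vol, vol, Measure.addHaar_image_linearMap, ENNReal.toReal_mul,
      ENNReal.toReal_ofReal (abs_nonneg _)]
  refine ⟨⟨init.comp e.symm.toLinearMap, |LinearMap.det T|, abs_pos.2 hdet, ?_, ?_, ?_⟩⟩
  · rw [LinearMap.coe_comp]
    refine Function.Surjective.comp (g := ⇑init) (fun z => ?_) e.symm.surjective
    exact ⟨Fin.snoc z 0, funext fun j => by simp [init, LinearMap.funLeft]⟩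
  · have : e.symm a = Pi.single (Fin.last n) 1 := by
      rw [LinearEquiv.symm_apply_eq]; exact hTe.symm
    funext j
    simp [this, init, LinearMap.funLeft, Fin.castSucc_ne_last]
  · intro X hc hx c hc0
    set Y := e.symm '' X with hY
    have hXY : T '' Y = X := by
      rw [hY, image_image]
      exact (image_congr fun x _ => e.apply_symm_apply x).trans (image_id' X)
    have hYc : IsCompact Y := hc.image e.symm.toLinearMap.continuous_of_finiteDimensional
    have hYx : Convex ℝ Y := hx.linear_image e.symm.toLinearMap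
    have h := congrArg ENNReal.toReal (volume_add_vert hYc hYx hc0)
    have hinit : IsCompact ((fun x : Fin (n + 1) → ℝ => Fin.init x) '' Y) :=
      hYc.image (continuous_pi fun i : Fin n => continuous_apply i.castSucc)
    rw [ENNReal.toReal_add hYc.measure_lt_top.ne
      (ENNReal.mul_ne_top ENNReal.ofReal_ne_top hinit.measure_lt_top.ne), ENNReal.toReal_mul,
      ENNReal.toReal_ofReal (by positivity)] at h
    have himgY : (init.comp e.symm.toLinearMap) '' X =
        (fun x : Fin (n + 1) → ℝ => Fin.init x) '' Y := by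
      rw [hY, image_image]; rfl
    rw [himgY]
    conv_lhs =>
      rw [← hXY, ← hTe, ← map_smul, ← linImage_seg T, ← Set.image_add, himg]
    rw [← hXY, himg, show vol (Y + seg (c • Pi.single (Fin.last n) 1)) = _ from h]
    show _ = _ + 2 * c * _ * (volume _).toReal
    simp only [vol]
    ring

variable {ι : Type*}

/-- A zonotope. -/
def tope (s : Finset ι) (a : ι → Fin n → ℝ) (c : ι → ℝ) : Set (Fin n → ℝ) :=
  ∑ i ∈ s, seg (c i • a i)

theorem body_tope (s : Finset ι) (a : ι → Fin n → ℝ) (c : ι → ℝ) : Body (tope s a c) :=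
  body_sum _ _

theorem tope_mono (s : Finset ι) (a : ι → Fin n → ℝ) {c d : ι → ℝ}
    (h : ∀ i ∈ s, |c i| ≤ |d i|) : tope s a c ⊆ tope s a d := by
  refine Set.finsetSum_subset_finsetSum s _ _ fun i hi => ?_
  rintro _ ⟨t, ht, rfl⟩
  rcases eq_or_ne (d i) 0 with hd | hd
  · have : c i = 0 := by simpa [hd] using h i hi
    exact ⟨0, by simp, by simp [this]⟩
  · refine ⟨t * c i / d i, abs_le.1 ?_, by simp [smul_smul, div_mul_cancel₀ _ hd]⟩
    rw [abs_div, abs_mul, div_le_one (abs_pos.2 hd)]
    exact (mul_le_of_le_one_left (abs_nonneg _) (abs_le.2 ht)).trans (h i hi)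

theorem rpow_holder {x₁ x₂ y₁ y₂ t : ℝ} (hx₁ : 0 ≤ x₁) (hx₂ : 0 ≤ x₂) (hy₁ : 0 ≤ y₁)
    (hy₂ : 0 ≤ y₂) (ht0 : 0 < t) (ht1 : t < 1) :
    x₁ ^ (1 - t) * y₁ ^ t + x₂ ^ (1 - t) * y₂ ^ t ≤ (x₁ + x₂) ^ (1 - t) * (y₁ + y₂) ^ t := by
  rcases (add_nonneg hx₁ hx₂).eq_or_lt with hX | hX
  · obtain ⟨rfl, rfl⟩ : x₁ = 0 ∧ x₂ = 0 := ⟨by linarith, by linarith⟩
    simp [Real.zero_rpow (by linarith : (1:ℝ) - t ≠ 0)]
  rcases (add_nonneg hy₁ hy₂).eq_or_lt with hY | hY
  · obtain ⟨rfl, rfl⟩ : y₁ = 0 ∧ y₂ = 0 := ⟨by linarith, by linarith⟩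
    simp [Real.zero_rpow ht0.ne']
  have key : ∀ {x y}, 0 ≤ x → 0 ≤ y → x ^ (1 - t) * y ^ t ≤
      ((1 - t) * (x / (x₁ + x₂)) + t * (y / (y₁ + y₂))) *
        ((x₁ + x₂) ^ (1 - t) * (y₁ + y₂) ^ t) := by
    intro x y hx hy
    have h := Real.geom_mean_le_arith_mean2_weighted (by linarith : (0:ℝ) ≤ 1 - t) ht0.le
      (div_nonneg hx hX.le) (div_nonneg hy hY.le) (by ring)
    rw [Real.div_rpow hx hX.le, Real.div_rpow hy hY.le, div_mul_div_comm, div_le_iff₀
      (mul_pos (Real.rpow_pos_of_pos hX _) (Real.rpow_pos_of_pos hY _))] at h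
    exact h
  refine (add_le_add (key hx₁ hy₁) (key hx₂ hy₂)).trans_eq ?_
  rw [← add_mul]
  convert one_mul _ using 2
  field_simp
  ring

/-- The volume of a zonotope is logarithmically convex in the logarithms of the lengths. -/
theorem vol_tope_log_convex (s : Finset ι) : ∀ {n : ℕ} (a : ι → Fin n → ℝ) (c d : ι → ℝ),
    (∀ i ∈ s, 0 ≤ c i) → (∀ i ∈ s, 0 ≤ d i) → ∀ {t : ℝ}, 0 < t → t < 1 →
    vol (tope s a fun i => c i ^ (1 - t) * d i ^ t) ≤
      vol (tope s a c) ^ (1 - t) * vol (tope s a d) ^ t := by
  classical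
  induction s using Finset.induction with
  | empty =>
    intro n a c d _ _ t ht0 ht1
    simp only [tope, Finset.sum_empty]
    rw [← Real.rpow_add_of_nonneg (vol_nonneg _) (by linarith) ht0.le, sub_add_cancel,
      Real.rpow_one]
  | insert k s hk ih =>
    intro n a c d hc hd t ht0 ht1
    have hc' := fun i hi => hc i (Finset.mem_insert_of_mem hi)
    have hd' := fun i hi => hd i (Finset.mem_insert_of_mem hi)
    have hck := hc k (Finset.mem_insert_self k s)
    have hdk := hd k (Finset.mem_insert_self k s)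
    set e := fun i => c i ^ (1 - t) * d i ^ t with he
    have hsplit : ∀ f : ι → ℝ, tope (insert k s) a f = tope s a f + seg (f k • a k) := fun f => by
      simp only [tope, Finset.sum_insert hk, add_comm]
    rcases eq_or_ne (a k) 0 with hak | hak
    · simp only [hsplit, hak, smul_zero, seg_zero, add_zero]
      exact ih a c d hc' hd' ht0 ht1
    cases n with
    | zero => exact absurd (Subsingleton.elim _ _) hak
    | succ n =>
      obtain ⟨p⟩ := exists_proj hak
      have hf : ∀ f : ι → ℝ, 0 ≤ f k → vol (tope (insert k s) a f) =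
          vol (tope s a f) + 2 * f k * p.κ * vol (tope s (fun i => p.P (a i)) f) := fun f hf => by
        rw [hsplit, p.formula _ (body_tope _ _ _).comp (body_tope _ _ _).conv _ hf]
        congr 3
        simp only [tope, linImage_sum, map_smul]
      have hek : 0 ≤ e k := mul_nonneg (Real.rpow_nonneg hck _) (Real.rpow_nonneg hdk _)
      rw [hf e hek, hf c hck, hf d hdk]
      have h1 := ih a c d hc' hd' ht0 ht1
      have h2 := ih (fun i => p.P (a i)) c d hc' hd' ht0 ht1
      refine le_trans ?_ (rpow_holder (vol_nonneg _)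
        (mul_nonneg (mul_nonneg (by positivity) p.pos.le) (vol_nonneg _)) (vol_nonneg _)
        (mul_nonneg (mul_nonneg (by positivity) p.pos.le) (vol_nonneg _)) ht0 ht1)
      refine add_le_add h1 (le_of_le_of_eq (mul_le_mul_of_nonneg_left h2
        (mul_nonneg (by positivity) p.pos.le)) ?_)
      rw [Real.mul_rpow (by positivity [p.pos]) (vol_nonneg _),
        Real.mul_rpow (by positivity [p.pos]) (vol_nonneg _),
        Real.mul_rpow (by positivity) p.pos.le, Real.mul_rpow (by positivity) p.pos.le,
        Real.mul_rpow two_pos.le hck, Real.mul_rpow two_pos.le hdk]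
      have h2t : (2:ℝ) ^ (1 - t) * 2 ^ t = 2 := by
        rw [← Real.rpow_add two_pos]; simp
      have hkt : p.κ ^ (1 - t) * p.κ ^ t = p.κ := by
        rw [← Real.rpow_add p.pos]; simp
      simp only [he]
      linear_combination
        -(c k ^ (1 - t) * d k ^ t * vol (tope s (fun i => p.P (a i)) c) ^ (1 - t) *
            vol (tope s (fun i => p.P (a i)) d) ^ t) * (p.κ ^ (1 - t) * p.κ ^ t) * h2t -
          2 * (c k ^ (1 - t) * d k ^ t * vol (tope s (fun i => p.P (a i)) c) ^ (1 - t) *
            vol (tope s (fun i => p.P (a i)) d) ^ t) * hkt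

end Vale.Agent.P227.Zonoid
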