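import Vale.Agent.P227.Zonoid.Seg

/-!
If the geometric mean of two support functions is at most the support function of a zonotope on
its facet normals, the zonotope has at least the geometric mean of the two volumes.
-/

noncomputable section

namespace Vale.Agent.P227.Zonoid

open Set Matrix MeasureTheory Pointwise Filter Topology
open scoped ENNReal

variable {n : ℕ} {ι : Type*}

theorem bm_add {A B : Set (Fin n → ℝ)} (hn : n ≠ 0) (hA : Body A) (hB : Body B) :
    vol A ^ (n⁻¹ : ℝ) + vol B ^ (n⁻¹ : ℝ) ≤ vol (A + B) ^ (n⁻¹ : ℝ) := by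
  have hs : ∀ S : Set (Fin n → ℝ),
      P254.vol ((fun x => (2:ℝ) • x) '' S) ^ (n⁻¹ : ℝ) = 2 * vol S ^ (n⁻¹ : ℝ) := by
    intro S
    show vol _ ^ _ = _
    rw [vol_smul S zero_le_two, Real.mul_rpow (by positivity) (vol_nonneg S),
      Real.pow_rpow_inv_natCast zero_le_two hn]
  have h := P254.bm_root hn (hA.smul 2).conv (hA.smul 2).comp (hA.smul 2).ne (hB.smul 2).conv
    (hB.smul 2).comp (hB.smul 2).ne (hA.add hB).conv (hA.add hB).comp (a := 1/2) (b := 1/2)
    (by norm_num) (by norm_num) (by norm_num) (by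
      rintro _ ⟨x, hx, rfl⟩ _ ⟨y, hy, rfl⟩
      simp only [smul_smul]
      norm_num
      exact Set.add_mem_add hx hy)
  rw [hs, hs] at h
  have e : P254.vol (A + B) = vol (A + B) := rfl
  rw [e] at h
  linarith

theorem add_tope_upper (s : Finset ι) (a : ι → Fin (n + 1) → ℝ) (p : ∀ i ∈ s, Proj n (a i))
    (c : ι → ℝ) (hc : ∀ i ∈ s, 0 ≤ c i) {X : Set (Fin (n + 1) → ℝ)} (hX : Body X) :
    vol (X + tope s a c) ≤ vol X + ∑ i ∈ s.attach,
      2 * c i * (p i i.2).κ * vol ((p i i.2).P '' (X + tope s a c)) ∧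
    vol X + ∑ i ∈ s.attach, 2 * c i * (p i i.2).κ * vol ((p i i.2).P '' X) ≤
      vol (X + tope s a c) := by
  classical
  have key : ∀ r : Finset ι, r ⊆ s →
      vol (X + tope r a c) ≤ vol X + ∑ i ∈ s.attach.filter (fun i => i.1 ∈ r),
        2 * c i * (p i i.2).κ * vol ((p i i.2).P '' (X + tope s a c)) ∧
      vol X + ∑ i ∈ s.attach.filter (fun i => i.1 ∈ r),
        2 * c i * (p i i.2).κ * vol ((p i i.2).P '' X) ≤ vol (X + tope r a c) := by
    intro r
    induction r using Finset.induction with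
    | empty => intro _; simp [tope]
    | insert k r hk ih =>
      intro hr
      obtain ⟨h1, h2⟩ := ih ((Finset.subset_insert k r).trans hr)
      have hks : k ∈ s := hr (Finset.mem_insert_self k r)
      have hfil : s.attach.filter (fun i => i.1 ∈ insert k r) =
          insert ⟨k, hks⟩ (s.attach.filter fun i => i.1 ∈ r) := by
        ext ⟨i, hi⟩; simp [Finset.mem_insert]
      have hnot : (⟨k, hks⟩ : s) ∉ s.attach.filter fun i => i.1 ∈ r := by simp [hk]
      have hb := hX.add (body_tope r a c)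
      have e : X + tope (insert k r) a c = X + tope r a c + seg (c k • a k) := by
        simp only [tope, Finset.sum_insert hk]; abel
      rw [e, (p k hks).formula _ hb.comp hb.conv _ (hc k hks), hfil, Finset.sum_insert hnot,
        Finset.sum_insert hnot]
      have hup : X + tope r a c ⊆ X + tope s a c := by
        refine Set.add_subset_add_left fun y hy => ?_
        simp only [tope] at hy ⊢
        rw [← Finset.sum_sdiff ((Finset.subset_insert k r).trans hr)]
        exact ⟨0, (body_sum _ _).zero_mem, y, hy, zero_add y⟩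
      have hlow : X ⊆ X + tope r a c := fun x hx =>
        ⟨x, hx, 0, (body_tope r a c).zero_mem, add_zero x⟩
      have hκ : 0 ≤ 2 * c k * (p k hks).κ :=
        mul_nonneg (mul_nonneg two_pos.le (hc k hks)) (p k hks).pos.le
      have m1 : vol ((p k hks).P '' (X + tope r a c)) ≤ vol ((p k hks).P '' (X + tope s a c)) :=
        vol_mono (body_linImage (hX.add (body_tope s a c)) _).comp (image_mono hup)
      have m2 : vol ((p k hks).P '' X) ≤ vol ((p k hks).P '' (X + tope r a c)) :=
        vol_mono (body_linImage hb _).comp (image_mono hlow)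
      exact ⟨by linarith [mul_le_mul_of_nonneg_left m1 hκ],
        by linarith [mul_le_mul_of_nonneg_left m2 hκ]⟩
  have := key s subset_rfl
  rwa [Finset.filter_true_of_mem fun i _ => i.2] at this

theorem exists_smul_superset {K S : Set (Fin n → ℝ)} (hK : K ∈ nhds 0) (hS : IsCompact S) :
    ∃ R : ℝ, 0 < R ∧ S ⊆ (fun x => R • x) '' K := by
  obtain ⟨r, hr0, hr⟩ := Metric.mem_nhds_iff.1 hK
  obtain ⟨C, hC0, hC⟩ := hS.isBounded.exists_pos_norm_le
  refine ⟨2 * C / r, by positivity, fun x hx => ⟨(r / (2 * C)) • x, hr ?_, ?_⟩⟩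
  · rw [Metric.mem_ball, dist_zero_right, norm_smul, Real.norm_of_nonneg (by positivity)]
    calc r / (2 * C) * ‖x‖ ≤ r / (2 * C) * C := mul_le_mul_of_nonneg_left (hC x hx) (by positivity)
      _ = r / 2 := by field_simp
      _ < r := half_lt_self hr0
  · show (2 * C / r) • (r / (2 * C)) • x = x
    rw [smul_smul, div_mul_div_comm, mul_comm, div_self (by positivity), one_smul]

/-- The first Minkowski inequality against a zonotope. -/
theorem minkowski (s : Finset ι) (a : ι → Fin (n + 1) → ℝ) (p : ∀ i ∈ s, Proj n (a i))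
    (c : ι → ℝ) (hc : ∀ i ∈ s, 0 ≤ c i) {K : Set (Fin (n + 1) → ℝ)} (hK : Body K)
    (hK0 : K ∈ nhds 0) :
    (n + 1 : ℝ) * (vol K ^ ((n:ℝ) / (n + 1)) * vol (tope s a c) ^ ((n + 1 : ℝ)⁻¹)) ≤
      ∑ i ∈ s.attach, 2 * c i * (p i i.2).κ * vol ((p i i.2).P '' K) := by
  have hm : ((n + 1 : ℕ) : ℝ) = (n : ℝ) + 1 := by push_cast; ring
  obtain ⟨R, hR, hsub⟩ := exists_smul_superset hK0 (body_tope s a c).comp
  set F := fun ε : ℝ => ∑ i ∈ s.attach,
    2 * c i * (p i i.2).κ * ((1 + ε * R) ^ n * vol ((p i i.2).P '' K)) with hF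
  have hlim : Tendsto F (𝓝[>] (0:ℝ))
      (𝓝 (∑ i ∈ s.attach, 2 * c i * (p i i.2).κ * vol ((p i i.2).P '' K))) := by
    have : Continuous F := by fun_prop
    simpa [hF] using (this.tendsto 0).mono_left nhdsWithin_le_nhds
  refine ge_of_tendsto hlim (eventually_nhdsWithin_of_forall fun ε (hε : 0 < ε) => ?_)
  have hbm := bm_add (n := n + 1) (by omega) hK (body_tope s a fun i => ε * c i)
  have hscale : tope s a (fun i => ε * c i) = (fun x => ε • x) '' tope s a c := by
    simp only [tope]
    rw [image_smul_sum]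
    simp only [smul_smul]
  have hup := (add_tope_upper s a p (fun i => ε * c i)
    (fun i hi => mul_nonneg hε.le (hc i hi)) hK).1
  have hgrow : K + tope s a (fun i => ε * c i) ⊆ (fun x => (1 + ε * R) • x) '' K := by
    rw [hscale]
    rintro _ ⟨x, hx, _, ⟨y, hy, rfl⟩, rfl⟩
    obtain ⟨z, hz, rfl⟩ := hsub hy
    have hmem := hK.conv hx hz (by positivity : (0:ℝ) ≤ 1 / (1 + ε * R))
      (by positivity : (0:ℝ) ≤ ε * R / (1 + ε * R)) (by field_simp)
    refine ⟨_, hmem, ?_⟩
    simp only [smul_add, smul_smul]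
    have : (1 + ε * R) ≠ 0 := by positivity
    field_simp
    simp
  set x := vol K ^ (((n + 1 : ℕ) : ℝ)⁻¹) with hx
  set y := vol (tope s a c) ^ (((n + 1 : ℕ) : ℝ)⁻¹) with hy
  have hx0 : 0 ≤ x := Real.rpow_nonneg (vol_nonneg _) _
  have hy0 : 0 ≤ y := Real.rpow_nonneg (vol_nonneg _) _
  have hεy : vol (tope s a fun i => ε * c i) ^ (((n + 1 : ℕ) : ℝ)⁻¹) = ε * y := by
    rw [hscale, vol_smul _ hε.le, Real.mul_rpow (by positivity) (vol_nonneg _),
      Real.pow_rpow_inv_natCast hε.le (Nat.succ_ne_zero n)]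
  rw [hεy] at hbm
  have hpow : x ^ (n + 1) + (n + 1) * x ^ n * (ε * y) ≤
      vol (K + tope s a fun i => ε * c i) := by
    have h1 : (x + ε * y) ^ (n + 1) ≤ vol (K + tope s a fun i => ε * c i) := by
      refine le_of_le_of_eq (pow_le_pow_left₀ (by positivity) hbm _) ?_
      rw [Real.rpow_inv_natCast_pow (vol_nonneg _) (Nat.succ_ne_zero n)]
    refine le_trans ?_ h1
    have hq : ∀ (k : ℕ) (u v : ℝ), 0 ≤ u → 0 ≤ v →
        u ^ (k + 1) + (k + 1) * u ^ k * v ≤ (u + v) ^ (k + 1) := by
      intro k u v hu hv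
      induction k with
      | zero => simp
      | succ k ih =>
        refine le_trans ?_ ((mul_le_mul_of_nonneg_right ih (by positivity)).trans_eq
          (pow_succ (u + v) (k + 1)).symm)
        push_cast
        have : 0 ≤ ((k:ℝ) + 1) * u ^ k * v * v := by positivity
        simp only [pow_succ]
        nlinarith
    exact hq n x (ε * y) hx0 (by positivity)
  have hxK : x ^ (n + 1) = vol K := Real.rpow_inv_natCast_pow (vol_nonneg _) (Nat.succ_ne_zero n)
  have hxn : x ^ n = vol K ^ ((n:ℝ) / (n + 1)) := by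
    rw [hx, ← Real.rpow_natCast, ← Real.rpow_mul (vol_nonneg _), hm]
    congr 1
    ring
  have hsum : ∑ i ∈ s.attach, 2 * (ε * c i) * (p i i.2).κ *
      vol ((p i i.2).P '' (K + tope s a fun i => ε * c i)) ≤ ε * F ε := by
    rw [hF, Finset.mul_sum]
    refine Finset.sum_le_sum fun i _ => ?_
    have h2 : vol ((p i i.2).P '' (K + tope s a fun i => ε * c i)) ≤
        (1 + ε * R) ^ n * vol ((p i i.2).P '' K) := by
      rw [← vol_smul _ (by positivity : (0:ℝ) ≤ 1 + ε * R)]
      refine vol_mono ((body_linImage hK _).smul _).comp ?_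
      refine (image_mono hgrow).trans ?_
      rintro _ ⟨_, ⟨v, hv, rfl⟩, rfl⟩
      exact ⟨_, ⟨v, hv, rfl⟩, (map_smul _ _ _).symm⟩
    have h3 : 0 ≤ 2 * (ε * c i) * (p i i.2).κ :=
      mul_nonneg (mul_nonneg two_pos.le (mul_nonneg hε.le (hc i i.2))) (p i i.2).pos.le
    refine (mul_le_mul_of_nonneg_left h2 h3).trans_eq ?_
    ring
  have : ε * ((n + 1) * (x ^ n * y)) ≤ ε * F ε := by
    rw [hxK] at hpow
    nlinarith
  have h4 := le_of_mul_le_mul_left this hε
  rwa [hxn, hy, hm] at h4

/-- Euler's inequality for the projections of a zonotope. -/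
theorem euler (s : Finset ι) (a : ι → Fin (n + 1) → ℝ) (p : ∀ i ∈ s, Proj n (a i)) :
    ∑ i ∈ s.attach, 2 * (p i i.2).κ * vol ((p i i.2).P '' tope s a fun _ => 1) ≤
      (n + 1) * vol (tope s a fun _ => 1) := by
  set Z := tope s a fun _ => 1 with hZ
  set G := fun ε : ℝ => (∑ j ∈ Finset.range (n + 1), (1 + ε) ^ j) * vol Z with hG
  have hlim : Tendsto G (𝓝[>] (0:ℝ)) (𝓝 ((n + 1) * vol Z)) := by
    have : Continuous G := by fun_prop
    simpa [hG] using (this.tendsto 0).mono_left nhdsWithin_le_nhds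
  refine ge_of_tendsto hlim (eventually_nhdsWithin_of_forall fun ε (hε : 0 < ε) => ?_)
  have h := (add_tope_upper s a p (fun _ => ε) (fun _ _ => hε.le) (body_tope s a fun _ => 1)).2
  have hsub : tope s a (fun _ => (1:ℝ)) + tope s a (fun _ => ε) ⊆
      (fun x => (1 + ε) • x) '' Z := by
    have e : tope s a (fun _ => ε) = (fun x => ε • x) '' Z := by
      simp only [hZ, tope]; rw [image_smul_sum]; simp
    rw [e, ← hZ]
    rintro _ ⟨x, hx, _, ⟨y, hy, rfl⟩, rfl⟩
    refine ⟨_, (body_tope s a fun _ => 1).conv hx hy (by positivity : (0:ℝ) ≤ 1 / (1 + ε))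
      (by positivity : (0:ℝ) ≤ ε / (1 + ε)) (by field_simp), ?_⟩
    simp only [smul_add, smul_smul]
    have : (1 + ε) ≠ 0 := by positivity
    field_simp
    simp
  have h2 := h.trans ((vol_mono ((body_tope s a fun _ => 1).smul _).comp hsub).trans_eq
    (vol_smul Z (by positivity : (0:ℝ) ≤ 1 + ε)))
  have hgeo : (∑ j ∈ Finset.range (n + 1), (1 + ε) ^ j) * ε = (1 + ε) ^ (n + 1) - 1 := by
    have := geom_sum_mul (1 + ε) (n + 1)
    simpa using this
  have h3 : ε * ∑ i ∈ s.attach, 2 * (p i i.2).κ * vol ((p i i.2).P '' Z) =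
      ∑ i ∈ s.attach, 2 * ε * (p i i.2).κ * vol ((p i i.2).P '' Z) := by
    rw [Finset.mul_sum]; exact Finset.sum_congr rfl fun _ _ => by ring
  refine le_of_mul_le_mul_left ?_ hε
  have h4 : ε * G ε = (1 + ε) ^ (n + 1) * vol Z - vol Z := by
    rw [hG, ← mul_assoc, mul_comm ε, hgeo]; ring
  rw [← hZ] at h2
  linarith

theorem rpow_swap {x : ℝ} (hx : 0 ≤ x) (y z : ℝ) : (x ^ y) ^ z = (x ^ z) ^ y := by
  rw [← Real.rpow_mul hx, ← Real.rpow_mul hx, mul_comm]

theorem supp_fin_one {K : Set (Fin 1 → ℝ)} (hK : Body K) : vol K = 2 * supp K ![1] := by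
  set h := supp K ![1]
  have e : K = univ.pi fun _ => Icc (-h) h := by
    refine subset_antisymm (fun x hx i _ => ?_) fun x hx => ?_
    · have := hK.abs_le_supp hx ![1]
      rw [abs_le] at this
      obtain rfl : i = 0 := Subsingleton.elim _ _
      simpa [dotProduct] using this
    · obtain ⟨y, hy, hyu⟩ := hK.exists_supp_eq ![1]
      have hy0 : y 0 = h := by simpa [dotProduct] using hyu
      have hx0 := hx 0 trivial
      rcases (hK.supp_nonneg ![1]).eq_or_lt with h0 | h0
      · have e0 : h = 0 := h0.symm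
        rw [e0, neg_zero, Icc_self, mem_singleton_iff] at hx0
        convert hK.zero_mem
        exact funext fun i => by rw [Subsingleton.elim i 0]; exact hx0
      have hseg := hK.conv hy (hK.symm y hy) (a := (1 + x 0 / h) / 2) (b := (1 - x 0 / h) / 2)
        (div_nonneg (by rw [← neg_le_iff_add_nonneg', le_div_iff₀ h0]; linarith [hx0.1]) two_pos.le)
        (div_nonneg (sub_nonneg.2 ((div_le_one h0).2 hx0.2)) two_pos.le) (by ring)
      have h0' : h ≠ 0 := h0.ne'
      convert hseg using 1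
      funext i
      rw [Subsingleton.elim i 0]
      simp only [Pi.add_apply, Pi.smul_apply, Pi.neg_apply, smul_eq_mul, hy0]
      field_simp [h0']
      ring
  rw [vol, e, volume_pi_pi]
  simp [Real.volume_Icc, ENNReal.toReal_ofReal (by linarith [hK.supp_nonneg ![1]] : 0 ≤ h + h)]
  ring

/-- The induction. -/
theorem tope_ineq : ∀ {n : ℕ} (s : Finset ι) (a : ι → Fin n → ℝ) {K L : Set (Fin n → ℝ)},
    Body K → Body L → K ∈ nhds 0 → L ∈ nhds 0 → (∑ i ∈ s, seg (a i)) ∈ nhds (0 : Fin n → ℝ) →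
    ∀ {t : ℝ}, 0 < t → t < 1 →
    (∀ u : Fin n → ℝ, u ≠ 0 → (∃ J : Finset ι, J ⊆ s ∧ J.card + 1 = n ∧
        LinearIndependent ℝ (fun j : J => a j) ∧ ∀ j ∈ J, u ⬝ᵥ a j = 0) →
      supp K u ^ (1 - t) * supp L u ^ t ≤ supp (∑ i ∈ s, seg (a i)) u) →
    vol K ^ (1 - t) * vol L ^ t ≤ vol (∑ i ∈ s, seg (a i)) := by
  classical
  intro n
  induction n with
  | zero =>
    intro s a K L hK hL _ _ _ t _ _ _
    rw [vol_dim_zero hK.ne, vol_dim_zero hL.ne, vol_dim_zero (body_sum s a).ne]
    simp
  | succ n ih =>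
    intro s a K L hK hL hK0 hL0 hZ0 t ht0 ht1 hyp
    rcases Nat.eq_zero_or_pos n with rfl | hn
    · rw [supp_fin_one hK, supp_fin_one hL, supp_fin_one (body_sum s a),
        Real.mul_rpow two_pos.le (hK.supp_nonneg _), Real.mul_rpow two_pos.le (hL.supp_nonneg _),
        mul_mul_mul_comm, ← Real.rpow_add two_pos, sub_add_cancel, Real.rpow_one]
      refine mul_le_mul_of_nonneg_left (hyp ![1] (fun h => by simpa using congrFun h 0)
        ⟨∅, Finset.empty_subset s, by simp, linearIndependent_empty_type, by simp⟩) two_pos.le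
    set s' := s.filter fun i => a i ≠ 0 with hs'
    have hne : ∀ i ∈ s', a i ≠ 0 := fun i hi => (Finset.mem_filter.1 hi).2
    have hex : ∀ i ∈ s', Nonempty (Proj n (a i)) := fun i hi => exists_proj (hne i hi)
    let p : ∀ i ∈ s', Proj n (a i) := fun i hi => (hex i hi).some
    set Z := ∑ i ∈ s, seg (a i) with hZ
    have hZ' : tope s' a (fun _ => 1) = Z := by
      simp only [tope, one_smul, hs', sum_filter_ne, hZ]
    have hopen : ∀ (i : s') {S : Set (Fin (n + 1) → ℝ)}, S ∈ nhds 0 →
        (p i i.2).P '' S ∈ nhds (0 : Fin n → ℝ) := fun i S hS => by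
      have := ((p i i.2).P.isOpenMap_of_finiteDimensional (p i i.2).surj).image_mem_nhds hS
      simpa using this
    have hproj : ∀ i : s', vol ((p i i.2).P '' K) ^ (1 - t) * vol ((p i i.2).P '' L) ^ t ≤
        vol ((p i i.2).P '' Z) := by
      intro i
      set P := (p i i.2).P with hP
      have hPZ : P '' Z = ∑ j ∈ s, seg (P (a j)) := linImage_sum P s a
      rw [hPZ]
      refine ih s (fun j => P (a j)) (body_linImage hK P) (body_linImage hL P) (hopen i hK0)
        (hopen i hL0) (hPZ ▸ hopen i hZ0) ht0 ht1 ?_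
      intro v hv ⟨J, hJs, hJc, hJi, hJv⟩
      set u : Fin (n + 1) → ℝ := fun k => v ⬝ᵥ P (Pi.single k 1) with hu
      have hdot : ∀ x, u ⬝ᵥ x = v ⬝ᵥ P x := fun x => by
        conv_rhs => rw [pi_eq_sum_univ' x, map_sum, dotProduct_sum]
        simp only [map_smul, dotProduct_smul, smul_eq_mul, hu]
        exact Finset.sum_congr rfl fun k _ => mul_comm _ _
      have hu0 : u ≠ 0 := fun h => by
        obtain ⟨x, hx⟩ := (p i i.2).surj v
        have := hdot x
        rw [h, zero_dotProduct, hP, hx] at this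
        exact hv (dotProduct_self_eq_zero.1 this.symm)
      have hs : ∀ S : Set (Fin (n + 1) → ℝ), supp (P '' S) v = supp S u := fun S => by
        simp only [supp, image_image, hdot]
      have hiJ : i.1 ∉ J := fun h => by
        have := hJi.ne_zero ⟨i.1, h⟩
        exact this (p i i.2).ker
      have key := hyp u hu0 ⟨insert i.1 J, Finset.insert_subset (Finset.mem_filter.1 i.2).1 hJs,
        by rw [Finset.card_insert_of_notMem hiJ]; omega, ?_, ?_⟩
      · rwa [← hs K, ← hs L, ← hs Z, hPZ] at key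
      · have hli : LinearIndepOn ℝ a ↑(insert i.1 J) := by
          rw [Finset.coe_insert]
          have hJa : LinearIndepOn ℝ (fun j => P (a j)) ↑J := hJi
          refine linearIndepOn_insert (by simpa using hiJ) |>.2 ⟨?_, fun hmem => ?_⟩
          · exact LinearIndependent.of_comp P hJa
          · obtain ⟨l, hl, hsum⟩ := (Finsupp.mem_span_image_iff_linearCombination ℝ).1 hmem
            have h0 := congrArg P hsum
            rw [(p i i.2).ker, Finsupp.apply_linearCombination] at h0
            have hl0 := linearIndepOn_iff.1 hJa l hl h0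
            rw [hl0, map_zero] at hsum
            exact hne i.1 i.2 hsum.symm
        exact hli
      · intro j hj
        rw [hdot]
        rcases Finset.mem_insert.1 hj with rfl | hj
        · rw [hP, (p i i.2).ker, dotProduct_zero]
        · exact hJv j hj
    have hpos : ∀ (i : s') {S : Set (Fin (n + 1) → ℝ)}, Body S → S ∈ nhds 0 →
        0 < vol ((p i i.2).P '' S) := fun i S hS h0 =>
      vol_pos (body_linImage hS _).comp (hopen i h0)
    have hZb : Body Z := body_sum _ _
    let c : (Set (Fin (n + 1) → ℝ)) → ι → ℝ := fun S i =>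
      if h : i ∈ s' then vol ((p i h).P '' Z) / vol ((p i h).P '' S) else 1
    have hc0 : ∀ S, ∀ i ∈ s', 0 ≤ c S i := fun S i hi => by
      simp only [c, dif_pos hi]
      exact div_nonneg (vol_nonneg _) (vol_nonneg _)
    have bound : ∀ {S : Set (Fin (n + 1) → ℝ)}, Body S → S ∈ nhds 0 →
        vol S ^ ((n:ℝ) / (n + 1)) * vol (tope s' a (c S)) ^ ((n + 1 : ℝ)⁻¹) ≤ vol Z := by
      intro S hS hS0
      have h := minkowski s' a p (c S) (hc0 S) hS hS0
      have h' := euler s' a p
      rw [hZ'] at h'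
      have e : ∑ i ∈ s'.attach, 2 * c S i * (p i i.2).κ * vol ((p i i.2).P '' S) =
          ∑ i ∈ s'.attach, 2 * (p i i.2).κ * vol ((p i i.2).P '' Z) := by
        refine Finset.sum_congr rfl fun i _ => ?_
        simp only [c, dif_pos i.2]
        field_simp [(hpos i hS hS0).ne']
      rw [e] at h
      exact le_of_mul_le_mul_left (h.trans h') (by positivity)
    have hK' := bound hK hK0
    have hL' := bound hL hL0
    have hlc := vol_tope_log_convex s' a (c K) (c L) (hc0 K) (hc0 L) ht0 ht1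
    have hge : vol Z ≤ vol (tope s' a fun i => c K i ^ (1 - t) * c L i ^ t) := by
      rw [← hZ']
      refine vol_mono (body_tope _ _ _).comp (tope_mono _ _ fun i hi => ?_)
      rw [abs_one, abs_of_nonneg (mul_nonneg (Real.rpow_nonneg (hc0 K i hi) _)
        (Real.rpow_nonneg (hc0 L i hi) _))]
      simp only [c, dif_pos hi]
      rw [Real.div_rpow (vol_nonneg _) (vol_nonneg _), Real.div_rpow (vol_nonneg _) (vol_nonneg _),
        div_mul_div_comm, ← Real.rpow_add (hpos ⟨i, hi⟩ hZb hZ0), sub_add_cancel, Real.rpow_one,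
        le_div_iff₀ (mul_pos (Real.rpow_pos_of_pos (hpos ⟨i, hi⟩ hK hK0) _)
          (Real.rpow_pos_of_pos (hpos ⟨i, hi⟩ hL hL0) _)), one_mul]
      exact hproj ⟨i, hi⟩
    set m : ℝ := (n : ℝ) + 1
    have hm : 0 < m := by positivity
    set A := vol K ^ (1 - t) * vol L ^ t
    have hA : 0 ≤ A := mul_nonneg (Real.rpow_nonneg (vol_nonneg _) _)
      (Real.rpow_nonneg (vol_nonneg _) _)
    have hmain : A ^ ((n:ℝ) / m) * vol Z ^ m⁻¹ ≤ vol Z := by
      have hnn : ∀ S : Set (Fin (n + 1) → ℝ), 0 ≤ vol S := fun S => vol_nonneg S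
      calc A ^ ((n:ℝ) / m) * vol Z ^ m⁻¹
          ≤ A ^ ((n:ℝ) / m) * (vol (tope s' a (c K)) ^ (1 - t) *
              vol (tope s' a (c L)) ^ t) ^ m⁻¹ :=
            mul_le_mul_of_nonneg_left
              (Real.rpow_le_rpow (hnn _) (hge.trans hlc) (inv_nonneg.2 hm.le))
              (Real.rpow_nonneg hA _)
        _ = (vol K ^ ((n:ℝ) / m) * vol (tope s' a (c K)) ^ m⁻¹) ^ (1 - t) *
              (vol L ^ ((n:ℝ) / m) * vol (tope s' a (c L)) ^ m⁻¹) ^ t := by
            simp only [A]
            rw [Real.mul_rpow (Real.rpow_nonneg (hnn _) _) (Real.rpow_nonneg (hnn _) _),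
              Real.mul_rpow (Real.rpow_nonneg (hnn _) _) (Real.rpow_nonneg (hnn _) _),
              Real.mul_rpow (Real.rpow_nonneg (hnn _) _) (Real.rpow_nonneg (hnn _) _),
              Real.mul_rpow (Real.rpow_nonneg (hnn _) _) (Real.rpow_nonneg (hnn _) _),
              rpow_swap (hnn K) (1 - t), rpow_swap (hnn L) t,
              rpow_swap (hnn (tope s' a (c K))) (1 - t),
              rpow_swap (hnn (tope s' a (c L))) t]
            ring
        _ ≤ vol Z ^ (1 - t) * vol Z ^ t := mul_le_mul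
            (Real.rpow_le_rpow (mul_nonneg (Real.rpow_nonneg (hnn _) _) (Real.rpow_nonneg (hnn _) _))
              hK' (by linarith))
            (Real.rpow_le_rpow (mul_nonneg (Real.rpow_nonneg (hnn _) _) (Real.rpow_nonneg (hnn _) _))
              hL' ht0.le)
            (Real.rpow_nonneg (mul_nonneg (Real.rpow_nonneg (hnn _) _) (Real.rpow_nonneg (hnn _) _)) _)
            (Real.rpow_nonneg (hnn _) _)
        _ = vol Z := by rw [← Real.rpow_add (vol_pos hZb.comp hZ0), sub_add_cancel, Real.rpow_one]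
    have hsplit : vol Z = vol Z ^ ((n:ℝ) / m) * vol Z ^ m⁻¹ := by
      rw [← Real.rpow_add (vol_pos hZb.comp hZ0)]
      have : (n:ℝ) / m + m⁻¹ = 1 := by simp only [m]; field_simp
      rw [this, Real.rpow_one]
    have h5 := le_of_mul_le_mul_right (hmain.trans_eq hsplit)
      (Real.rpow_pos_of_pos (vol_pos hZb.comp hZ0) _)
    exact (Real.rpow_le_rpow_iff hA (vol_nonneg _) (by positivity)).1 h5

end Vale.Agent.P227.Zonoid
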